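import Vale.Agent.P346.RS

/-!
# P346: approximating a circuit over `F_2`
-/

namespace Vale.Agent.P346

variable {V : Type} [Fintype V] [DecidableEq V]

/-- A `ΣΠΣΠΣ` circuit over `F_2`, evaluated at functions of degree at most one, agrees with a
function of degree at most `ℓ * ℓ` on all but a `size * 2 ^ (-ℓ)` fraction of the points. -/
theorem circ_approx {X : Type} (C : Circuit (ZMod 2) X) (a : X → Fn V)
    (ha : ∀ v, a v ∈ VD V 1) (ℓ : ℕ) :
    ∃ P ∈ VD V (ℓ * ℓ),
      (Finset.univ.filter fun x : Pt V =>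
        MvPolynomial.eval (fun v => a v x) C.out ≠ P x).card * 2 ^ ℓ ≤
        C.size * 2 ^ Fintype.card V := by
  classical
  -- bottom sums
  have h0 : ∀ l, (fun x => MvPolynomial.eval (fun v => a v x) (C.v0 l) : Fn V) ∈ VD V 1 := by
    intro l
    unfold Circuit.v0
    rcases C.leaf l with v | k
    · simpa using ha v
    · simpa using const_mem k 1
  have h1 : ∀ g, (fun x => MvPolynomial.eval (fun v => a v x) (C.v1 g) : Fn V) ∈ VD V 1 := by
    intro g
    have : (fun x => MvPolynomial.eval (fun v => a v x) (C.v1 g) : Fn V) =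
        ∑ l ∈ C.s1 g, C.c1 g l • (fun x => MvPolynomial.eval (fun v => a v x) (C.v0 l) : Fn V) := by
      funext x
      simp [Circuit.v1, Finset.sum_apply]
    rw [this]
    exact Submodule.sum_mem _ fun l _ => Submodule.smul_mem _ _ (h0 l)
  -- lower products
  have h2 := fun g : Fin C.n2 => rs_multiset (C.p2 g)
    (fun h => (fun x => MvPolynomial.eval (fun v => a v x) (C.v1 h) : Fn V)) 1 ℓ h1
  choose g2 hg2 hb2 using h2
  set f3 : Fin C.n3 → Fn V := fun g => ∑ h ∈ C.s3 g, C.c3 g h • g2 h with hf3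
  have h3 : ∀ g, f3 g ∈ VD V ℓ := fun g =>
    Submodule.sum_mem _ fun h _ => Submodule.smul_mem _ _ (by simpa using hg2 h)
  have h4 := fun g : Fin C.n4 => rs_multiset (C.p4 g) f3 ℓ ℓ h3
  choose g4 hg4 hb4 using h4
  refine ⟨∑ h ∈ C.s5, C.c5 h • g4 h,
    Submodule.sum_mem _ fun h _ => Submodule.smul_mem _ _ (hg4 h), ?_⟩
  set B2 : Fin C.n2 → Finset (Pt V) := fun g => Finset.univ.filter fun x : Pt V =>
    ((C.p2 g).map fun h => MvPolynomial.eval (fun v => a v x) (C.v1 h)).prod ≠ g2 g x with hB2
  set B4 : Fin C.n4 → Finset (Pt V) := fun g => Finset.univ.filter fun x : Pt V =>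
    ((C.p4 g).map fun h => f3 h x).prod ≠ g4 g x with hB4
  have hsub : (Finset.univ.filter fun x : Pt V =>
        MvPolynomial.eval (fun v => a v x) C.out ≠ (∑ h ∈ C.s5, C.c5 h • g4 h) x) ⊆
      (Finset.univ.biUnion B2) ∪ (Finset.univ.biUnion B4) := by
    intro x hx
    rw [Finset.mem_filter] at hx
    by_contra hnot
    rw [Finset.mem_union, not_or] at hnot
    obtain ⟨hn2, hn4⟩ := hnot
    rw [Finset.mem_biUnion] at hn2 hn4
    push Not at hn2 hn4
    have e2 : ∀ g, MvPolynomial.eval (fun v => a v x) (C.v2 g) = g2 g x := by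
      intro g
      have := hn2 g (Finset.mem_univ g)
      rw [hB2, Finset.mem_filter, not_and, not_not] at this
      rw [← this (Finset.mem_univ x), Circuit.v2, map_multiset_prod, Multiset.map_map]
      rfl
    have e3 : ∀ g, MvPolynomial.eval (fun v => a v x) (C.v3 g) = f3 g x := by
      intro g
      simp [Circuit.v3, hf3, Finset.sum_apply, e2]
    have e4 : ∀ g, MvPolynomial.eval (fun v => a v x) (C.v4 g) = g4 g x := by
      intro g
      have := hn4 g (Finset.mem_univ g)
      rw [hB4, Finset.mem_filter, not_and, not_not] at this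
      rw [← this (Finset.mem_univ x), Circuit.v4, map_multiset_prod, Multiset.map_map]
      congr 1
      apply Multiset.map_congr rfl
      intro h _
      exact e3 h
    apply hx.2
    simp [Circuit.out, Finset.sum_apply, e4]
  have hcard : (Finset.univ.filter fun x : Pt V =>
        MvPolynomial.eval (fun v => a v x) C.out ≠ (∑ h ∈ C.s5, C.c5 h • g4 h) x).card ≤
      ∑ g, (B2 g).card + ∑ g, (B4 g).card :=
    (Finset.card_le_card hsub).trans ((Finset.card_union_le _ _).trans
      (Nat.add_le_add Finset.card_biUnion_le Finset.card_biUnion_le))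
  calc _ ≤ (∑ g, (B2 g).card + ∑ g, (B4 g).card) * 2 ^ ℓ := Nat.mul_le_mul_right _ hcard
    _ = ∑ g, (B2 g).card * 2 ^ ℓ + ∑ g, (B4 g).card * 2 ^ ℓ := by
        rw [add_mul, Finset.sum_mul, Finset.sum_mul]
    _ ≤ ∑ _g : Fin C.n2, 2 ^ Fintype.card V + ∑ _g : Fin C.n4, 2 ^ Fintype.card V :=
        Nat.add_le_add (Finset.sum_le_sum fun g _ => hb2 g) (Finset.sum_le_sum fun g _ => hb4 g)
    _ = (C.n2 + C.n4) * 2 ^ Fintype.card V := by
        rw [Finset.sum_const, Finset.sum_const, Finset.card_univ, Finset.card_univ,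
          Fintype.card_fin, Fintype.card_fin, smul_eq_mul, smul_eq_mul, add_mul]
    _ ≤ C.size * 2 ^ Fintype.card V := by
        apply Nat.mul_le_mul_right
        unfold Circuit.size
        omega

end Vale.Agent.P346
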