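import Vale.Agent.P346.Deg

/-!
# P346: Chebyshev and Hoeffding
-/

namespace Vale.Agent.P346

/-- Signs. -/
def sg (a : ZMod 2) : ℤ := if a = 1 then 1 else -1

theorem sg_add_one (a : ZMod 2) : sg (a + 1) = -sg a := by
  revert a; decide

theorem sg_sq (a : ZMod 2) : sg a * sg a = 1 := by
  revert a; decide

theorem sg_eq (a : ZMod 2) : sg a = 2 * (if a = 1 then 1 else 0) - 1 := by
  revert a; decide

theorem sum_sg {n : ℕ} (x : Pt (Fin n)) : ∑ i, sg (x i) = 2 * (wt x : ℤ) - n := by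
  simp only [sg_eq, Finset.sum_sub_distrib, ← Finset.mul_sum]
  simp [wt, Finset.sum_boole]

theorem sum_sg_mul {n : ℕ} {i j : Fin n} (hij : i ≠ j) :
    ∑ x : Pt (Fin n), sg (x i) * sg (x j) = 0 := by
  have h1 : ∑ x : Pt (Fin n), sg (x i) * sg (x j) =
      ∑ x : Pt (Fin n), -(sg (x i) * sg (x j)) := by
    rw [← Equiv.sum_comp (Equiv.addRight (Pi.single i (1 : ZMod 2) : Pt (Fin n)))]
    refine Finset.sum_congr rfl fun x _ => ?_
    simp only [Equiv.coe_addRight, Pi.add_apply, Pi.single_eq_same,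
      Pi.single_eq_of_ne (Ne.symm hij), add_zero, sg_add_one]
    ring
  rw [Finset.sum_neg_distrib] at h1
  linarith

theorem sum_sg_sq (n : ℕ) : ∑ x : Pt (Fin n), (∑ i, sg (x i)) ^ 2 = 2 ^ n * n := by
  have h : ∀ x : Pt (Fin n), (∑ i, sg (x i)) ^ 2 = ∑ i, ∑ j, sg (x i) * sg (x j) := fun x => by
    rw [pow_two, Finset.sum_mul_sum]
  simp only [h]
  rw [Finset.sum_comm]
  have h2 : ∀ i : Fin n, ∑ x : Pt (Fin n), ∑ j, sg (x i) * sg (x j) = 2 ^ n := by
    intro i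
    rw [Finset.sum_comm, Finset.sum_eq_single i]
    · simp [sg_sq, Pt]
    · intro j _ hj
      exact sum_sg_mul (Ne.symm hj)
    · simp
  simp [h2]
  ring

/-- Chebyshev. -/
theorem cheb (h t : ℕ) :
    4 * t ^ 2 * (Finset.univ.filter fun x : Pt (Fin (2 * h)) =>
      (t : ℤ) ≤ |(wt x : ℤ) - h|).card ≤ 2 ^ (2 * h) * (2 * h) := by
  have h1 := sum_sg_sq (2 * h)
  set F := (Finset.univ.filter fun x : Pt (Fin (2 * h)) => (t : ℤ) ≤ |(wt x : ℤ) - h|) with hF
  have h2 : ∑ x ∈ F, (4 * (t : ℤ) ^ 2) ≤ ∑ x : Pt (Fin (2 * h)), (∑ i, sg (x i)) ^ 2 := by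
    refine (Finset.sum_le_sum fun x hx => ?_).trans
      (Finset.sum_le_sum_of_subset_of_nonneg (Finset.subset_univ F)
        fun x _ _ => sq_nonneg (∑ i, sg (x i)))
    rw [sum_sg]
    rw [hF, Finset.mem_filter] at hx
    have h3 : (t : ℤ) ^ 2 ≤ ((wt x : ℤ) - h) ^ 2 := by
      rw [← sq_abs ((wt x : ℤ) - h)]
      exact pow_le_pow_left₀ (by positivity) hx.2 2
    push_cast
    nlinarith
  rw [Finset.sum_const, h1, nsmul_eq_mul] at h2
  have h4 : ((4 * t ^ 2 * F.card : ℕ) : ℤ) ≤ ((2 ^ (2 * h) * (2 * h) : ℕ) : ℤ) := by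
    push_cast at h2 ⊢
    linarith
  exact_mod_cast h4

/-- Hoeffding. -/
theorem hoeff (V : Type) [Fintype V] [DecidableEq V] (D : ℕ)
    (hD : (D : ℝ) ≤ (Fintype.card V : ℝ) / 2) (hV : 0 < Fintype.card V) :
    ((Finset.univ.filter fun S : Finset V => S.card ≤ D).card : ℝ) ≤
      2 ^ Fintype.card V *
        Real.exp (-(2 * ((Fintype.card V : ℝ) / 2 - D) ^ 2 / Fintype.card V)) := by
  set M := Fintype.card V with hM
  have hM0 : (0 : ℝ) < M := by exact_mod_cast hV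
  set δ : ℝ := (M : ℝ) / 2 - D with hδ
  have hδ0 : 0 ≤ δ := by rw [hδ]; linarith
  set l : ℝ := 4 * δ / M with hl
  have hl0 : 0 ≤ l := by positivity
  have h1 : ((Finset.univ.filter fun S : Finset V => S.card ≤ D).card : ℝ) ≤
      ∑ S : Finset V, Real.exp (l * (D - S.card)) := by
    rw [Finset.card_eq_sum_ones, Nat.cast_sum]
    refine (Finset.sum_le_sum fun S hS => ?_).trans
      (Finset.sum_le_sum_of_subset_of_nonneg (Finset.subset_univ _)
        fun S _ _ => (Real.exp_pos _).le)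
    rw [Finset.mem_filter] at hS
    rw [Nat.cast_one, Real.one_le_exp_iff]
    have : (S.card : ℝ) ≤ D := by exact_mod_cast hS.2
    have h2 : 0 ≤ (D : ℝ) - S.card := by linarith
    positivity
  have h2 : ∑ S : Finset V, Real.exp (l * (D - S.card)) =
      Real.exp (l * D) * (Real.exp (-l) + 1) ^ M := by
    rw [hM, ← Fintype.sum_pow_mul_eq_add_pow, Finset.mul_sum]
    refine Finset.sum_congr rfl fun S _ => ?_
    rw [one_pow, mul_one, ← Real.exp_nat_mul, ← Real.exp_add]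
    congr 1
    ring
  have h3 : Real.exp (-l) + 1 = 2 * (Real.exp (-(l / 2)) * Real.cosh (l / 2)) := by
    rw [Real.cosh_eq]
    have e1 : Real.exp (-(l / 2)) * Real.exp (l / 2) = 1 := by
      rw [← Real.exp_add]; simp
    have e2 : Real.exp (-(l / 2)) * Real.exp (-(l / 2)) = Real.exp (-l) := by
      rw [← Real.exp_add]; congr 1; ring
    linear_combination -e1 - e2
  have h4 : (Real.exp (-l) + 1) ^ M ≤
      2 ^ M * (Real.exp (-(l / 2)) * Real.exp ((l / 2) ^ 2 / 2)) ^ M := by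
    rw [h3, mul_pow]
    gcongr
    exact Real.cosh_le_exp_half_sq _
  refine h1.trans ?_
  rw [h2]
  refine (mul_le_mul_of_nonneg_left h4 (Real.exp_pos _).le).trans (le_of_eq ?_)
  rw [← Real.exp_add, ← Real.exp_nat_mul]
  rw [show Real.exp (l * D) * (2 ^ M * Real.exp (M * (-(l / 2) + (l / 2) ^ 2 / 2))) =
    2 ^ M * (Real.exp (l * D) * Real.exp (M * (-(l / 2) + (l / 2) ^ 2 / 2))) by ring,
    ← Real.exp_add]
  congr 2
  rw [hl]
  have hD' : (D : ℝ) = M / 2 - δ := by rw [hδ]; ring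
  rw [hD']
  field_simp
  ring

end Vale.Agent.P346
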