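import Vale.Agent.P346.Counts
import Vale.Agent.P346.Counts2

/-!
# P346: covering most of the cube by few Hamming balls
-/

namespace Vale.Agent.P346

/-- Translation does not change the number of points with a property. -/
theorem card_filter_translate {N : ℕ} (p : Pt (Fin N) → Prop) [DecidablePred p]
    (x : Pt (Fin N)) :
    (Finset.univ.filter fun y : Pt (Fin N) => p (x + y)).card =
      (Finset.univ.filter fun y : Pt (Fin N) => p y).card := by
  classical
  rw [← Finset.card_map (Equiv.addLeft x).toEmbedding]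
  congr 1
  ext z
  simp only [Finset.mem_map, Finset.mem_filter, Finset.mem_univ, true_and,
    Equiv.coe_toEmbedding, Equiv.coe_addLeft]
  constructor
  · rintro ⟨y, hy, rfl⟩
    exact hy
  · intro hz
    exact ⟨-x + z, by simpa using hz, by simp⟩

theorem card_filter_translate' {N : ℕ} (p : Pt (Fin N) → Prop) [DecidablePred p]
    (x : Pt (Fin N)) :
    (Finset.univ.filter fun y : Pt (Fin N) => p (y + x)).card =
      (Finset.univ.filter fun y : Pt (Fin N) => p y).card := by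
  rw [← card_filter_translate p x]
  congr 1
  ext z
  simp only [Finset.mem_filter, Finset.mem_univ, true_and, add_comm]

theorem card_all {N r : ℕ} (p : Pt (Fin N) → Prop) [DecidablePred p] :
    (Finset.univ.filter fun c : Fin r → Pt (Fin N) => ∀ i, p (c i)).card =
      (Finset.univ.filter fun y : Pt (Fin N) => p y).card ^ r := by
  classical
  have : (Finset.univ.filter fun c : Fin r → Pt (Fin N) => ∀ i, p (c i)) =
      Fintype.piFinset fun _ : Fin r => Finset.univ.filter fun y : Pt (Fin N) => p y := by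
    ext c
    simp [Fintype.mem_piFinset]
  rw [this, Fintype.card_piFinset]
  simp

theorem card_Pt (N : ℕ) : Fintype.card (Pt (Fin N)) = 2 ^ N := by
  simp [Pt]

theorem exists_cover (N θ r : ℕ)
    (h : 2 ^ N ≤ 5 * (Finset.univ.filter fun x : Pt (Fin N) => wt x < θ).card) :
    ∃ c : Fin r → Pt (Fin N),
      (Finset.univ.filter fun x : Pt (Fin N) => ∀ i, θ ≤ wt (x + c i)).card * 5 ^ r ≤
        4 ^ r * 2 ^ N := by
  classical
  by_contra hcon
  push Not at hcon
  set A := (Finset.univ.filter fun x : Pt (Fin N) => θ ≤ wt x).card with hA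
  -- `5 A ≤ 4 * 2 ^ N`
  have hA5 : 5 * A ≤ 4 * 2 ^ N := by
    have h1 := Finset.card_filter_add_card_filter_not (s := (Finset.univ : Finset (Pt (Fin N))))
      (fun x => wt x < θ)
    rw [Finset.card_univ, card_Pt] at h1
    simp only [not_lt] at h1
    omega
  have hsum : ∑ c : Fin r → Pt (Fin N),
      (Finset.univ.filter fun x : Pt (Fin N) => ∀ i, θ ≤ wt (x + c i)).card = 2 ^ N * A ^ r := by
    simp_rw [Finset.card_filter]
    rw [Finset.sum_comm]
    have : ∀ x : Pt (Fin N), (∑ c : Fin r → Pt (Fin N),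
        if ∀ i, θ ≤ wt (x + c i) then 1 else 0) = A ^ r := by
      intro x
      rw [← Finset.card_filter, card_all (fun y => θ ≤ wt (x + y)),
        card_filter_translate (fun y => θ ≤ wt y) x]
    rw [Finset.sum_congr rfl fun x _ => this x, Finset.sum_const, Finset.card_univ, card_Pt,
      smul_eq_mul]
  have hlt : ∑ c : Fin r → Pt (Fin N), 4 ^ r * 2 ^ N <
      ∑ c : Fin r → Pt (Fin N),
        (Finset.univ.filter fun x : Pt (Fin N) => ∀ i, θ ≤ wt (x + c i)).card * 5 ^ r :=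
    Finset.sum_lt_sum_of_nonempty ⟨fun _ => 0, Finset.mem_univ _⟩ fun c _ => hcon c
  rw [← Finset.sum_mul (f := fun c : Fin r → Pt (Fin N) =>
    (Finset.univ.filter fun x : Pt (Fin N) => ∀ i, θ ≤ wt (x + c i)).card), hsum,
    Finset.sum_const, Finset.card_univ, Fintype.card_fun,
    card_Pt, Fintype.card_fin, smul_eq_mul] at hlt
  have h2 : 2 ^ N * A ^ r * 5 ^ r ≤ (2 ^ N) ^ r * (4 ^ r * 2 ^ N) := by
    calc 2 ^ N * A ^ r * 5 ^ r = 2 ^ N * (5 * A) ^ r := by rw [mul_pow]; ring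
      _ ≤ 2 ^ N * (4 * 2 ^ N) ^ r := Nat.mul_le_mul_left _ (Nat.pow_le_pow_left hA5 r)
      _ = (2 ^ N) ^ r * (4 ^ r * 2 ^ N) := by rw [mul_pow]; ring
  exact absurd hlt (not_lt.2 h2)

/-- Points whose translates all have weight in the window, one of them below `8 d ^ 2`. -/
def Wset (d : ℕ) (c : Fin 24 → Pt (Fin (2 * (8 * d ^ 2 + d)))) :
    Finset (Pt (Fin (2 * (8 * d ^ 2 + d)))) :=
  Finset.univ.filter fun x =>
    (∀ i, 8 * d ^ 2 - 128 * d ≤ wt (x + c i) ∧ wt (x + c i) < 8 * d ^ 2 + 128 * d) ∧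
      ∃ i, wt (x + c i) < 8 * d ^ 2

/-- Few points have weight outside the window. -/
theorem card_outside (d : ℕ) (hd : 32 ≤ d) :
    64516 * (Finset.univ.filter fun x : Pt (Fin (2 * (8 * d ^ 2 + d))) =>
      ¬ (8 * d ^ 2 - 128 * d ≤ wt x ∧ wt x < 8 * d ^ 2 + 128 * d)).card ≤
      17 * 2 ^ (2 * (8 * d ^ 2 + d)) := by
  classical
  have h1 := cheb (8 * d ^ 2 + d) (127 * d)
  have hsub : (Finset.univ.filter fun x : Pt (Fin (2 * (8 * d ^ 2 + d))) =>
      ¬ (8 * d ^ 2 - 128 * d ≤ wt x ∧ wt x < 8 * d ^ 2 + 128 * d)) ⊆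
      (Finset.univ.filter fun x : Pt (Fin (2 * (8 * d ^ 2 + d))) =>
      ((127 * d : ℕ) : ℤ) ≤ |(wt x : ℤ) - (8 * d ^ 2 + d : ℕ)|) := by
    intro x hx
    rw [Finset.mem_filter] at hx ⊢
    refine ⟨hx.1, ?_⟩
    have h2 := hx.2
    generalize wt x = w at h2
    rw [not_and_or, not_le, not_lt] at h2
    generalize 8 * d ^ 2 = e at h2 ⊢
    rcases h2 with h2 | h2
    · rw [le_abs]
      right
      push_cast
      omega
    · rw [le_abs]
      left
      push_cast
      omega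
  have h3 := Finset.card_le_card hsub
  set K := (Finset.univ.filter fun x : Pt (Fin (2 * (8 * d ^ 2 + d))) =>
      ¬ (8 * d ^ 2 - 128 * d ≤ wt x ∧ wt x < 8 * d ^ 2 + 128 * d)).card with hK
  have h4 : 4 * (127 * d) ^ 2 * K ≤ 2 ^ (2 * (8 * d ^ 2 + d)) * (2 * (8 * d ^ 2 + d)) :=
    (Nat.mul_le_mul_left _ h3).trans h1
  have h5 : d ^ 2 * (64516 * K) ≤ d ^ 2 * (17 * 2 ^ (2 * (8 * d ^ 2 + d))) := by
    have h6 : 2 * (8 * d ^ 2 + d) ≤ 17 * d ^ 2 := by nlinarith
    calc d ^ 2 * (64516 * K) = 4 * (127 * d) ^ 2 * K := by ring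
      _ ≤ 2 ^ (2 * (8 * d ^ 2 + d)) * (2 * (8 * d ^ 2 + d)) := h4
      _ ≤ 2 ^ (2 * (8 * d ^ 2 + d)) * (17 * d ^ 2) := Nat.mul_le_mul_left _ h6
      _ = _ := by ring
  exact Nat.le_of_mul_le_mul_left h5 (by positivity)

theorem exists_good (d : ℕ) (hd : 32 ≤ d) :
    ∃ c : Fin 24 → Pt (Fin (2 * (8 * d ^ 2 + d))),
      79 * 2 ^ (2 * (8 * d ^ 2 + d)) ≤ 80 * (Wset d c).card := by
  classical
  obtain ⟨c, hc⟩ := exists_cover (2 * (8 * d ^ 2 + d)) (8 * d ^ 2) 24 (tail_lower d (by omega))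
  refine ⟨c, ?_⟩
  set U := (Finset.univ.filter fun x : Pt (Fin (2 * (8 * d ^ 2 + d))) =>
    ∀ i, 8 * d ^ 2 ≤ wt (x + c i)) with hU
  have hcov : (Finset.univ : Finset (Pt (Fin (2 * (8 * d ^ 2 + d))))) ⊆
      (Wset d c ∪ U) ∪ (Finset.univ : Finset (Fin 24)).biUnion fun i =>
        Finset.univ.filter fun x : Pt (Fin (2 * (8 * d ^ 2 + d))) =>
        ¬ (8 * d ^ 2 - 128 * d ≤ wt (x + c i) ∧ wt (x + c i) < 8 * d ^ 2 + 128 * d) := by
    intro x _
    rw [Finset.mem_union, Finset.mem_union]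
    by_cases h1 : ∀ i, 8 * d ^ 2 - 128 * d ≤ wt (x + c i) ∧ wt (x + c i) < 8 * d ^ 2 + 128 * d
    · left
      by_cases h2 : ∃ i, wt (x + c i) < 8 * d ^ 2
      · left
        rw [Wset, Finset.mem_filter]
        exact ⟨Finset.mem_univ _, h1, h2⟩
      · right
        rw [hU, Finset.mem_filter]
        push Not at h2
        exact ⟨Finset.mem_univ _, h2⟩
    · right
      rw [not_forall] at h1
      obtain ⟨i, hi⟩ := h1
      rw [Finset.mem_biUnion]
      exact ⟨i, Finset.mem_univ _, by rw [Finset.mem_filter]; exact ⟨Finset.mem_univ _, hi⟩⟩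
  have h1 := (Finset.card_le_card hcov).trans ((Finset.card_union_le _ _).trans
    (Nat.add_le_add (Finset.card_union_le _ _) Finset.card_biUnion_le))
  rw [Finset.card_univ, card_Pt] at h1
  have h2 : ∀ i : Fin 24, (Finset.univ.filter fun x : Pt (Fin (2 * (8 * d ^ 2 + d))) =>
        ¬ (8 * d ^ 2 - 128 * d ≤ wt (x + c i) ∧ wt (x + c i) < 8 * d ^ 2 + 128 * d)).card =
      (Finset.univ.filter fun x : Pt (Fin (2 * (8 * d ^ 2 + d))) =>
      ¬ (8 * d ^ 2 - 128 * d ≤ wt x ∧ wt x < 8 * d ^ 2 + 128 * d)).card := fun i =>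
    card_filter_translate' (fun y => ¬ (8 * d ^ 2 - 128 * d ≤ wt y ∧
      wt y < 8 * d ^ 2 + 128 * d)) (c i)
  rw [Finset.sum_congr rfl fun i _ => h2 i, Finset.sum_const, Finset.card_univ,
    Fintype.card_fin, smul_eq_mul] at h1
  have h3 := card_outside d hd
  generalize (Finset.univ.filter fun x : Pt (Fin (2 * (8 * d ^ 2 + d))) =>
      ¬ (8 * d ^ 2 - 128 * d ≤ wt x ∧ wt x < 8 * d ^ 2 + 128 * d)).card = K at h1 h3
  generalize (Wset d c).card = Wc at h1 ⊢
  generalize U.card = Uc at h1 hc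
  generalize 2 ^ (2 * (8 * d ^ 2 + d)) = Z at *
  norm_num at hc
  omega

end Vale.Agent.P346
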