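import Vale.Agent.P346.Deg

/-!
# P346: a binary digit is a threshold function in a window
-/

namespace Vale.Agent.P346

theorem choose_two_pow_mod (j : ℕ) : ∀ w : ℕ, (w.choose (2 ^ j)) % 2 = (w / 2 ^ j) % 2 := by
  have : Fact (Nat.Prime 2) := ⟨Nat.prime_two⟩
  induction j with
  | zero => intro w; simp
  | succ j ih =>
    intro w
    have h := Choose.choose_modEq_choose_mod_mul_choose_div_nat (n := w) (k := 2 ^ (j + 1)) (p := 2)
    have h1 : 2 ^ (j + 1) % 2 = 0 := by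
      rw [pow_succ]; exact Nat.mul_mod_left _ _
    have h2 : 2 ^ (j + 1) / 2 = 2 ^ j := by
      rw [pow_succ]; exact Nat.mul_div_cancel _ (by norm_num)
    rw [h1, h2, Nat.choose_zero_right, one_mul] at h
    rw [h, ih, Nat.div_div_eq_div_mul, pow_succ' 2 j]

theorem choose_window (j T w : ℕ) (h1 : 2 ^ (j + 1) * T - 2 ^ j ≤ w)
    (h2 : w < 2 ^ (j + 1) * T + 2 ^ j) (hT : 1 ≤ T) :
    ((w.choose (2 ^ j) : ℕ) : ZMod 2) = if w < 2 ^ (j + 1) * T then 1 else 0 := by
  have hp : 0 < 2 ^ j := by positivity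
  have e1 : 2 ^ (j + 1) * T = 2 * T * 2 ^ j := by rw [pow_succ]; ring
  rw [e1] at h1 h2 ⊢
  have key := choose_two_pow_mod j w
  by_cases hw : w < 2 * T * 2 ^ j
  · rw [if_pos hw]
    have hq : w / 2 ^ j = 2 * T - 1 := by
      apply Nat.div_eq_of_lt_le
      · rw [Nat.sub_mul, one_mul]; exact h1
      · have : 2 * T - 1 + 1 = 2 * T := by omega
        rw [this]; exact hw
    rw [hq] at key
    have h3 : w.choose (2 ^ j) % 2 = 1 := by omega
    have h4 : ((w.choose (2 ^ j) : ℕ) : ZMod 2) = ((1 : ℕ) : ZMod 2) :=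
      (ZMod.natCast_eq_natCast_iff' _ _ 2).2 h3
    rw [h4, Nat.cast_one]
  · rw [if_neg hw]
    have hq : w / 2 ^ j = 2 * T := by
      apply Nat.div_eq_of_lt_le
      · exact not_lt.1 hw
      · rw [Nat.add_mul, one_mul]; exact h2
    rw [hq] at key
    have h3 : w.choose (2 ^ j) % 2 = 0 := by omega
    have h4 : ((w.choose (2 ^ j) : ℕ) : ZMod 2) = ((0 : ℕ) : ZMod 2) :=
      (ZMod.natCast_eq_natCast_iff' _ _ 2).2 h3
    rw [h4, Nat.cast_zero]

end Vale.Agent.P346
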