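import Vale.Agent.P346.Deg

/-!
# P346: block products and the final numerical contradiction
-/

namespace Vale.Agent.P346

/-- The set of points all of whose blocks lie in `W`. -/
def WW {m N : ℕ} (W : Finset (Pt (Fin N))) : Finset (Pt (Fin m × Fin N)) :=
  Finset.univ.filter fun X => ∀ v, (fun i => X (v, i)) ∈ W

theorem card_WW {m N : ℕ} (W : Finset (Pt (Fin N))) :
    (WW (m := m) W).card = W.card ^ m := by
  have h : (WW (m := m) W).card = (Fintype.piFinset fun _ : Fin m => W).card := by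
    refine Finset.card_bij (fun X _ => fun v i => X (v, i)) ?_ ?_ ?_
    · intro X hX
      rw [Fintype.mem_piFinset]
      exact (Finset.mem_filter.1 hX).2
    · intro X _ Y _ h
      funext p
      exact congrFun (congrFun h p.1) p.2
    · intro Y hY
      rw [Fintype.mem_piFinset] at hY
      exact ⟨fun p => Y p.1 p.2, Finset.mem_filter.2 ⟨Finset.mem_univ _, hY⟩, rfl⟩
  rw [h, Fintype.card_piFinset]
  simp

/-- The numerical contradiction. -/
theorem numeric (d m : ℕ) (hd : 32 ≤ d) (hm : 40 ≤ m) (e : ℝ)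
    (he : (1 / 2) * ((79 : ℝ) / 80) ^ m ≤ e)
    (he2 : e ≤ Real.exp (-(2 * ((m : ℝ) * d / 2) ^ 2 / (m * (2 * (8 * d ^ 2 + d)))))) : False := by
  have hd' : (32 : ℝ) ≤ d := by exact_mod_cast hd
  have hm' : (40 : ℝ) ≤ m := by exact_mod_cast hm
  have h1 : (m : ℝ) / 33 ≤ 2 * ((m : ℝ) * d / 2) ^ 2 / (m * (2 * (8 * d ^ 2 + d))) := by
    rw [div_le_div_iff₀ (by norm_num) (by positivity)]
    have h2 : (m : ℝ) * (m * (2 * (8 * d ^ 2 + d))) = (m ^ 2 * d) * (16 * d + 2) := by ring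
    have h3 : 2 * ((m : ℝ) * d / 2) ^ 2 * 33 = (m ^ 2 * d) * (33 / 2 * d) := by ring
    rw [h2, h3]
    refine mul_le_mul_of_nonneg_left ?_ (by positivity)
    linarith
  have h2 : Real.exp (-(1 / 79 : ℝ)) ≤ 79 / 80 := by
    rw [Real.exp_neg]
    have h3 := Real.add_one_le_exp (1 / 79 : ℝ)
    have h4 : (80 / 79 : ℝ) ≤ Real.exp (1 / 79) := by linarith
    calc (Real.exp (1 / 79))⁻¹ ≤ (80 / 79 : ℝ)⁻¹ := inv_anti₀ (by norm_num) h4
      _ = 79 / 80 := by norm_num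
  have h3 : Real.exp (-((m : ℝ) / 79)) ≤ (79 / 80 : ℝ) ^ m := by
    calc Real.exp (-((m : ℝ) / 79)) = Real.exp (-(1 / 79 : ℝ)) ^ m := by
          rw [← Real.exp_nat_mul]; congr 1; ring
      _ ≤ (79 / 80 : ℝ) ^ m := pow_le_pow_left₀ (Real.exp_nonneg _) h2 m
  have h4 : Real.exp (-(2 * ((m : ℝ) * d / 2) ^ 2 / (m * (2 * (8 * d ^ 2 + d))))) ≤
      Real.exp (-((m : ℝ) / 33)) := Real.exp_le_exp.2 (by linarith)
  have h5 : (1 / 2 : ℝ) * Real.exp (-((m : ℝ) / 79)) ≤ Real.exp (-((m : ℝ) / 33)) := by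
    linarith
  have h6 : (1 / 2 : ℝ) = Real.exp (-Real.log 2) := by
    rw [Real.exp_neg, Real.exp_log (by norm_num)]; norm_num
  rw [h6, ← Real.exp_add, Real.exp_le_exp] at h5
  have h7 := Real.log_two_lt_d9
  linarith

end Vale.Agent.P346
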