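import Vale.Agent.P346.Deg

/-!
# P346: products of elementary symmetric polynomials are projections of `IMM`
-/

namespace Vale.Agent.P346

/-- The matrix with entry `x_{j-1}` at `(i, j)` for `i < j`. -/
def Emat {N : ℕ} (x : Pt (Fin N)) : Matrix (Fin (N + 1)) (Fin (N + 1)) (ZMod 2) :=
  Matrix.of fun i j => if h : i < j then x ⟨j - 1, by omega⟩ else 0

/-- The number of ones in positions `≥ i`. -/
def cntGe {N : ℕ} (x : Pt (Fin N)) (i : ℕ) : ℕ :=
  (Finset.univ.filter fun t : Fin N => i ≤ t ∧ x t = 1).card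

theorem cntGe_zero {N : ℕ} (x : Pt (Fin N)) : cntGe x 0 = wt x := by
  simp [cntGe, wt]

theorem cntGe_of_le {N : ℕ} (x : Pt (Fin N)) (i : ℕ) (h : N ≤ i) : cntGe x i = 0 := by
  unfold cntGe
  rw [Finset.card_eq_zero, Finset.filter_eq_empty_iff]
  rintro t - ⟨ht, -⟩
  omega

theorem cntGe_succ {N : ℕ} (x : Pt (Fin N)) (i : ℕ) (h : i < N) :
    cntGe x i = cntGe x (i + 1) + if x ⟨i, h⟩ = 1 then 1 else 0 := by
  have h2 : (if x ⟨i, h⟩ = 1 then 1 else 0 : ℕ) =
      ∑ t : Fin N, if t = ⟨i, h⟩ then (if x t = 1 then 1 else 0) else 0 := by simp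
  simp only [cntGe, Finset.card_filter]
  rw [h2, ← Finset.sum_add_distrib]
  refine Finset.sum_congr rfl fun t _ => ?_
  by_cases h1 : t = ⟨i, h⟩
  · subst h1
    by_cases h3 : x ⟨i, h⟩ = 1 <;> simp [h3]
  · have h4 : (t : ℕ) ≠ i := fun e => h1 (Fin.ext e)
    have h5 : (i ≤ (t : ℕ)) ↔ (i + 1 ≤ (t : ℕ)) := by omega
    simp only [h1, if_false, add_zero, h5]

theorem sum_cnt {N : ℕ} (x : Pt (Fin N)) (k : ℕ) (d : ℕ) : ∀ i : ℕ, i + d = N →
    ∑ t : Fin N, (if i ≤ (t : ℕ) then x t * ((cntGe x ((t : ℕ) + 1)).choose k : ZMod 2) else 0) =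
      ((cntGe x i).choose (k + 1) : ZMod 2) := by
  induction d with
  | zero =>
    intro i hi
    rw [cntGe_of_le x i (by omega)]
    simp only [Nat.choose_zero_succ, Nat.cast_zero]
    refine Finset.sum_eq_zero fun t _ => ?_
    rw [if_neg (by omega)]
  | succ d ih =>
    intro i hi
    have hiN : i < N := by omega
    have h1 := ih (i + 1) (by omega)
    have h2 : ∑ t : Fin N, (if i ≤ (t : ℕ) then
        x t * ((cntGe x ((t : ℕ) + 1)).choose k : ZMod 2) else 0) =
        (∑ t : Fin N, if t = ⟨i, hiN⟩ then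
          x t * ((cntGe x ((t : ℕ) + 1)).choose k : ZMod 2) else 0) +
        ∑ t : Fin N, (if i + 1 ≤ (t : ℕ) then
          x t * ((cntGe x ((t : ℕ) + 1)).choose k : ZMod 2) else 0) := by
      rw [← Finset.sum_add_distrib]
      refine Finset.sum_congr rfl fun t _ => ?_
      by_cases h1 : t = ⟨i, hiN⟩
      · subst h1
        simp
      · have h4 : (t : ℕ) ≠ i := fun e => h1 (Fin.ext e)
        have h5 : (i ≤ (t : ℕ)) ↔ (i + 1 ≤ (t : ℕ)) := by omega
        simp only [h1, if_false, zero_add, h5]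
    rw [h2, h1, Finset.sum_ite_eq' Finset.univ, if_pos (Finset.mem_univ _), cntGe_succ x i hiN]
    have h6 : x ⟨i, hiN⟩ = 0 ∨ x ⟨i, hiN⟩ = 1 := by
      generalize x ⟨i, hiN⟩ = a
      revert a; decide
    rcases h6 with h6 | h6
    · simp [h6]
    · simp [h6, Nat.choose_succ_succ]

theorem Emat_mulVec {N : ℕ} (x : Pt (Fin N)) (k : ℕ) :
    (Emat x).mulVec (fun i => ((cntGe x i).choose k : ZMod 2)) =
      fun i : Fin (N + 1) => ((cntGe x i).choose (k + 1) : ZMod 2) := by
  funext i
  rw [Matrix.mulVec, dotProduct, Fin.sum_univ_succ, ← sum_cnt x k (N - i) i (by omega)]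
  have h0 : Emat x i 0 * ((cntGe x ((0 : Fin (N + 1)) : ℕ)).choose k : ZMod 2) = 0 := by
    simp [Emat]
  rw [h0, zero_add]
  refine Finset.sum_congr rfl fun t _ => ?_
  simp only [Emat, Matrix.of_apply, Fin.val_succ, Nat.add_sub_cancel]
  by_cases h : i ≤ (t : ℕ)
  · have h' : i < t.succ := by
      rw [Fin.lt_def, Fin.val_succ]; omega
    rw [dif_pos h', if_pos h]
  · have h' : ¬ i < t.succ := by
      rw [Fin.lt_def, Fin.val_succ]; omega
    rw [dif_neg h', if_neg h, zero_mul]

theorem Emat_pow_mulVec {N : ℕ} (x : Pt (Fin N)) (k : ℕ) :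
    (Emat x ^ k).mulVec (fun _ => 1) =
      fun i : Fin (N + 1) => ((cntGe x i).choose k : ZMod 2) := by
  induction k with
  | zero => simp
  | succ k ih =>
    rw [pow_succ', ← Matrix.mulVec_mulVec, ih, Emat_mulVec]

theorem Emat_pow {N : ℕ} (x : Pt (Fin N)) (k : ℕ) :
    ∑ j, (Emat x ^ k) 0 j = ((wt x).choose k : ZMod 2) := by
  have h := congrFun (Emat_pow_mulVec x k) 0
  simp only [Matrix.mulVec, dotProduct, mul_one] at h
  rw [h, ← cntGe_zero]
  rfl

/-- Extension by zero. -/
def extZ {N : ℕ} (N' : ℕ) (x : Pt (Fin N)) : Pt (Fin N') :=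
  fun t => if h : (t : ℕ) < N then x ⟨t, h⟩ else 0

theorem wt_extZ {N N' : ℕ} (h : N ≤ N') (x : Pt (Fin N)) : wt (extZ N' x) = wt x := by
  unfold wt
  symm
  refine Finset.card_bij (fun t _ => Fin.castLE h t) ?_ ?_ ?_
  · intro t ht
    simp only [Finset.mem_filter, Finset.mem_univ, true_and] at ht ⊢
    simp [extZ, ht]
  · intro s _ t _ hst
    exact Fin.castLE_injective h hst
  · intro t ht
    simp only [Finset.mem_filter, Finset.mem_univ, true_and] at ht
    unfold extZ at ht
    split_ifs at ht with h1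
    · exact ⟨⟨t, h1⟩, by simpa using ht, rfl⟩
    · exact absurd ht (by decide)

/-- Matrices whose first row vanishes outside the first entry. -/
theorem row_prod {n : ℕ} {R : Type} [CommRing R] (l : List (Matrix (Fin (n + 1)) (Fin (n + 1)) R))
    (hl : ∀ A ∈ l, ∀ j, j ≠ 0 → A 0 j = 0) :
    (l.prod 0 0 = (l.map fun A => A 0 0).prod) ∧ ∀ j, j ≠ 0 → l.prod 0 j = 0 := by
  induction l with
  | nil =>
    constructor
    · simp
    · intro j hj
      simp [hj.symm]
  | cons A l ih =>
    obtain ⟨ih1, ih2⟩ := ih fun B hB => hl B (List.mem_cons_of_mem _ hB)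
    have hA := hl A List.mem_cons_self
    have key : ∀ j, (A * l.prod) 0 j = A 0 0 * l.prod 0 j := by
      intro j
      rw [Matrix.mul_apply]
      refine Finset.sum_eq_single 0 (fun b _ hb => ?_) (fun h => absurd (Finset.mem_univ _) h)
      rw [hA b hb, zero_mul]
    constructor
    · rw [List.prod_cons, key, ih1, List.map_cons, List.prod_cons]
    · intro j hj
      rw [List.prod_cons, key, ih2 j hj, mul_zero]

theorem range_block {M : Type} [Monoid M] (G : ℕ → M) (m k : ℕ) :
    ((List.range (m * k)).map G).prod =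
      ((List.range m).map fun v => ((List.range k).map fun r => G (v * k + r)).prod).prod := by
  induction m with
  | zero => simp
  | succ m ih =>
    rw [Nat.succ_mul, List.range_add, List.map_append, List.prod_append, ih, List.range_succ,
      List.map_append, List.prod_append, List.map_map]
    simp [Function.comp_def]

/-- The reset matrix. -/
def Rmat (n : ℕ) : Matrix (Fin (n + 1)) (Fin (n + 1)) (ZMod 2) :=
  Matrix.of fun _ j => if j = 0 then 1 else 0

/-- The `l`-th matrix. -/
def Lmat (n N m k : ℕ) (X : Pt (Fin m × Fin N)) (l : ℕ) :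
    Matrix (Fin (n + 1)) (Fin (n + 1)) (ZMod 2) :=
  if h : l / (k + 1) < m then
    if l % (k + 1) < k then Emat (extZ n fun t => X (⟨l / (k + 1), h⟩, t)) else Rmat n
  else 1

theorem Lmat_mem (n N m k : ℕ) (l : ℕ) (i j : Fin (n + 1)) :
    (fun X => Lmat n N m k X l i j : Fn (Fin m × Fin N)) ∈ VD (Fin m × Fin N) 1 := by
  unfold Lmat
  by_cases h : l / (k + 1) < m
  · simp only [dif_pos h]
    by_cases h1 : l % (k + 1) < k
    · simp only [if_pos h1, Emat, Matrix.of_apply, extZ]
      by_cases h2 : i < j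
      · simp only [dif_pos h2]
        by_cases h3 : (j : ℕ) - 1 < N
        · simp only [dif_pos h3]
          exact coord_mem _ le_rfl
        · simp only [dif_neg h3]
          exact const_mem 0 1
      · simp only [dif_neg h2]
        exact const_mem 0 1
    · simp only [if_neg h1]
      exact const_mem _ 1
  · simp only [dif_neg h]
    exact const_mem _ 1

theorem Lmat_block (n N m k : ℕ) (X : Pt (Fin m × Fin N)) (v : ℕ) (hv : v < m) :
    ((List.range (k + 1)).map fun r => Lmat n N m k X (v * (k + 1) + r)).prod =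
      Emat (extZ n fun t => X (⟨v, hv⟩, t)) ^ k * Rmat n := by
  have hdiv : ∀ r, r < k + 1 → (v * (k + 1) + r) / (k + 1) = v := by
    intro r hr
    rw [mul_comm, Nat.mul_add_div (Nat.succ_pos k), Nat.div_eq_of_lt hr, add_zero]
  have hmod : ∀ r, r < k + 1 → (v * (k + 1) + r) % (k + 1) = r := by
    intro r hr
    rw [mul_comm, Nat.mul_add_mod, Nat.mod_eq_of_lt hr]
  have h1 : ∀ r, r < k → Lmat n N m k X (v * (k + 1) + r) =
      Emat (extZ n fun t => X (⟨v, hv⟩, t)) := by
    intro r hr
    unfold Lmat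
    have e := hdiv r (by omega)
    have e2 := hmod r (by omega)
    simp only [e, e2, dif_pos hv, if_pos hr]
  have h2 : Lmat n N m k X (v * (k + 1) + k) = Rmat n := by
    unfold Lmat
    have e := hdiv k (by omega)
    have e2 := hmod k (by omega)
    simp only [e, e2, dif_pos hv, lt_irrefl, if_false]
  rw [List.range_succ, List.map_append, List.prod_append]
  congr 1
  · rw [List.map_congr_left (g := fun _ => Emat (extZ n fun t => X (⟨v, hv⟩, t)))
      (fun r hr => h1 r (List.mem_range.1 hr))]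
    simp
  · simp [h2]

theorem imm_proj (n N m k : ℕ) (hn : 0 < n) (hw : N + 1 ≤ n) (hl : m * (k + 1) ≤ n) :
    ∃ a : IVar n n → Fn (Fin m × Fin N), (∀ v, a v ∈ VD (Fin m × Fin N) 1) ∧
      ∀ X : Pt (Fin m × Fin N),
        MvPolynomial.eval (fun v => a v X) (IMM (ZMod 2) n n hn) =
          ∏ v : Fin m, ((wt fun i => X (v, i)).choose k : ZMod 2) := by
  obtain ⟨n, rfl⟩ : ∃ n', n = n' + 1 := ⟨n - 1, by omega⟩
  refine ⟨fun v X => Lmat n N m k X v.1 v.2.1 v.2.2, fun v => Lmat_mem _ _ _ _ _ _ _, fun X => ?_⟩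
  have h1 : MvPolynomial.eval (fun v : IVar (n + 1) (n + 1) => Lmat n N m k X v.1 v.2.1 v.2.2)
      (IMM (ZMod 2) (n + 1) (n + 1) hn) =
      ((List.ofFn fun l : Fin (n + 1) => Lmat n N m k X l).prod) 0 0 := by
    unfold IMM
    have h2 := map_list_prod ((MvPolynomial.eval (fun v : IVar (n + 1) (n + 1) =>
      Lmat n N m k X v.1 v.2.1 v.2.2)).mapMatrix (m := Fin (n + 1)))
      (List.ofFn (genMat (ZMod 2) (n + 1) (n + 1)))
    rw [List.map_ofFn] at h2
    have h3 : (⇑((MvPolynomial.eval (fun v : IVar (n + 1) (n + 1) =>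
      Lmat n N m k X v.1 v.2.1 v.2.2)).mapMatrix (m := Fin (n + 1))) ∘
        (genMat (ZMod 2) (n + 1) (n + 1))) = fun l : Fin (n + 1) => Lmat n N m k X l := by
      funext l
      ext i j
      simp [genMat]
    rw [h3] at h2
    rw [← h2]
    rfl
  rw [h1]
  have h4 : (List.ofFn fun l : Fin (n + 1) => Lmat n N m k X l) =
      (List.range (n + 1)).map (Lmat n N m k X) := by
    rw [List.ofFn_eq_map]
    conv_rhs => rw [← List.map_coe_finRange_eq_range, List.map_map]
    rfl
  obtain ⟨e, he⟩ : ∃ e, n + 1 = m * (k + 1) + e := ⟨n + 1 - m * (k + 1), by omega⟩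
  have h5 : ((List.range (n + 1)).map (Lmat n N m k X)).prod =
      ((List.range m).map fun v =>
        ((List.range (k + 1)).map fun r => Lmat n N m k X (v * (k + 1) + r)).prod).prod := by
    have hre : List.range (n + 1) = List.range (m * (k + 1) + e) := by rw [he]
    rw [hre, List.range_add, List.map_append, List.prod_append, range_block, List.map_map]
    have h6 : ((List.range e).map (Lmat n N m k X ∘ fun x => m * (k + 1) + x)).prod = 1 := by
      refine List.prod_eq_one ?_
      intro A hA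
      obtain ⟨r, _, rfl⟩ := List.mem_map.1 hA
      have : ¬ (m * (k + 1) + r) / (k + 1) < m := by
        rw [not_lt, Nat.le_div_iff_mul_le (Nat.succ_pos k)]
        exact Nat.le_add_right _ _
      simp only [Function.comp_apply, Lmat, dif_neg this]
    rw [h6, mul_one]
  have hblk : ∀ v : Fin m, ((List.range (k + 1)).map fun r =>
      Lmat n N m k X ((v : ℕ) * (k + 1) + r)).prod =
      Emat (extZ n fun t => X (v, t)) ^ k * Rmat n := fun v => Lmat_block n N m k X v v.2
  have h7 : ((List.range m).map fun v =>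
        ((List.range (k + 1)).map fun r => Lmat n N m k X (v * (k + 1) + r)).prod) =
      List.ofFn fun v : Fin m => Emat (extZ n fun t => X (v, t)) ^ k * Rmat n := by
    have hr : List.range m = (List.finRange m).map (fun x : Fin m => (x : ℕ)) :=
      List.map_coe_finRange_eq_range.symm
    rw [List.ofFn_eq_map, hr, List.map_map]
    refine List.map_congr_left fun v _ => ?_
    exact hblk v
  have hRow : ∀ (A : Matrix (Fin (n + 1)) (Fin (n + 1)) (ZMod 2)) (j : Fin (n + 1)),
      (A * Rmat n) 0 j = if j = 0 then ∑ i, A 0 i else 0 := by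
    intro A j
    rw [Matrix.mul_apply]
    by_cases hj : j = 0
    · simp [Rmat, hj]
    · simp [Rmat, hj]
  rw [h4, h5, h7]
  have h8 := (row_prod (List.ofFn fun v : Fin m =>
    Emat (extZ n fun t => X (v, t)) ^ k * Rmat n) (by
      intro A hA j hj
      obtain ⟨v, rfl⟩ := (List.mem_ofFn' _ _).1 hA
      exact (hRow _ _).trans (if_neg hj))).1
  rw [h8, List.map_ofFn, List.prod_ofFn]
  refine Finset.prod_congr rfl fun v _ => ?_
  simp only [Function.comp_apply]
  rw [hRow, if_pos rfl, Emat_pow, wt_extZ (by omega)]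

end Vale.Agent.P346
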