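import Vale.Agent.P346.Deg

/-!
# P346: the dimension argument
-/

namespace Vale.Agent.P346

/-- The translation vector of a choice of centres. -/
def sh {m N r : ℕ} (c : Fin r → Pt (Fin N)) (σ : Fin m → Fin r) : Pt (Fin m × Fin N) :=
  fun p => c (σ p.1) p.2

/-- Möbius inversion over `F_2`. -/
theorem span_mobius {α : Type} [DecidableEq α] (h : Finset α → ZMod 2) (S : Finset α) :
    ∑ S' ∈ S.powerset, ∑ S'' ∈ S'.powerset, h S'' = h S := by
  classical
  have h1 : ∑ S' ∈ S.powerset, ∑ S'' ∈ S'.powerset, h S'' =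
      ∑ S'' ∈ S.powerset, ∑ _S' ∈ Finset.Icc S'' S, h S'' := by
    apply Finset.sum_comm'
    intro x y
    simp only [Finset.mem_powerset, Finset.mem_Icc]
    constructor
    · rintro ⟨h1, h2⟩
      exact ⟨⟨h2, h1⟩, h2.trans h1⟩
    · rintro ⟨⟨h1, h2⟩, _⟩
      exact ⟨h2, h1⟩
  rw [h1]
  have h2 : ∀ S'' ∈ S.powerset, ∑ _S' ∈ Finset.Icc S'' S, h S'' = if S'' = S then h S else 0 := by
    intro S'' hS
    rw [Finset.mem_powerset] at hS
    rw [Finset.sum_const, Finset.card_Icc_finset hS]
    split_ifs with he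
    · subst he
      simp
    · have hlt : S''.card < S.card := by
        refine Finset.card_lt_card (lt_of_le_of_ne hS he)
      obtain ⟨k, hk⟩ : ∃ k, S.card - S''.card = k + 1 := ⟨S.card - S''.card - 1, by omega⟩
      rw [hk, nsmul_eq_mul]
      have : ((2 ^ (k + 1) : ℕ) : ZMod 2) = 0 := by
        rw [pow_succ]
        push_cast
        have h2 : (2 : ZMod 2) = 0 := by decide
        rw [h2, mul_zero]
      rw [this, zero_mul]
  rw [Finset.sum_congr rfl h2, Finset.sum_ite_eq']
  simp

theorem span_mono_eq {V : Type} [Fintype V] [DecidableEq V] (S : Finset V) (Y : Pt V) :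
    mono S Y = if S ⊆ Finset.univ.filter (fun i => Y i = 1) then 1 else 0 := by
  unfold mono
  split_ifs with h
  · apply Finset.prod_eq_one
    intro i hi
    exact (Finset.mem_filter.mp (h hi)).2
  · rw [Finset.not_subset] at h
    obtain ⟨i, hi, hx⟩ := h
    apply Finset.prod_eq_zero hi
    have hx' : Y i ≠ 1 := fun h1 => hx (Finset.mem_filter.mpr ⟨Finset.mem_univ _, h1⟩)
    revert hx'
    generalize Y i = a
    revert a
    decide

/-- Every function on a product of Hamming balls of radius `θ - 1` has degree at most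
`m * (θ - 1)`. -/
theorem ball_function (m N θ : ℕ) (c : Pt (Fin m × Fin N)) (h : Fn (Fin m × Fin N)) :
    ∃ q ∈ VD (Fin m × Fin N) (m * (θ - 1)),
      ∀ X : Pt (Fin m × Fin N), (∀ v, wt (fun i => X (v, i) + c (v, i)) < θ) → q X = h X := by
  classical
  set T : Finset (Finset (Fin m × Fin N)) := Finset.univ.filter
    (fun S => ∀ v, (Finset.univ.filter (fun i => (v, i) ∈ S)).card < θ) with hT
  set ind : Finset (Fin m × Fin N) → Pt (Fin m × Fin N) := fun S p => if p ∈ S then 1 else 0
    with hind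
  set h' : Finset (Fin m × Fin N) → ZMod 2 := fun S => h (ind S + c) with hh'
  set q0 : Fn (Fin m × Fin N) := ∑ S' ∈ T, (∑ S'' ∈ S'.powerset, h' S'') • mono S' with hq0
  have hcard : ∀ S ∈ T, S.card ≤ m * (θ - 1) := by
    intro S hS
    rw [hT, Finset.mem_filter] at hS
    have h1 : S.card = ∑ v : Fin m, (S.filter (fun p => p.1 = v)).card :=
      Finset.card_eq_sum_card_fiberwise (fun _ _ => Finset.mem_univ _)
    have h2 : ∀ v : Fin m, (S.filter (fun p => p.1 = v)).card ≤ θ - 1 := by
      intro v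
      have h3 : (S.filter (fun p => p.1 = v)).card ≤
          (Finset.univ.filter (fun i => (v, i) ∈ S)).card := by
        apply Finset.card_le_card_of_injOn (fun p => p.2)
        · intro p hp
          have hp' := Finset.mem_filter.mp hp
          have he : (v, p.2) = p := by
            rw [← hp'.2]
          apply Finset.mem_coe.mpr
          rw [Finset.mem_filter]
          refine ⟨Finset.mem_univ _, ?_⟩
          show (v, p.2) ∈ S
          rw [he]
          exact hp'.1
        · intro p hp p' hp' he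
          have h1 := (Finset.mem_filter.mp hp).2
          have h2 := (Finset.mem_filter.mp hp').2
          exact Prod.ext (h1.trans h2.symm) he
      exact Nat.le_pred_of_lt (lt_of_le_of_lt h3 (hS.2 v))
    rw [h1]
    calc ∑ v : Fin m, (S.filter (fun p => p.1 = v)).card ≤ ∑ _v : Fin m, (θ - 1) :=
          Finset.sum_le_sum fun v _ => h2 v
      _ = m * (θ - 1) := by simp
  have hq0mem : q0 ∈ VD (Fin m × Fin N) (m * (θ - 1)) := by
    rw [hq0]
    exact Submodule.sum_mem _ fun S hS => Submodule.smul_mem _ _ (mono_mem (hcard S hS))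
  refine ⟨fun X => q0 (X + c), VD_translate hq0mem c, ?_⟩
  intro X hX
  set Y := X + c with hY
  set S := Finset.univ.filter (fun p => Y p = 1) with hS
  have hST : ∀ S' ⊆ S, S' ∈ T := by
    intro S' hS'
    rw [hT, Finset.mem_filter]
    refine ⟨Finset.mem_univ _, fun v => lt_of_le_of_lt ?_ (hX v)⟩
    unfold wt
    apply Finset.card_le_card
    intro i hi
    have hi' := hS' (Finset.mem_filter.mp hi).2
    rw [hS, Finset.mem_filter] at hi'
    rw [Finset.mem_filter]
    exact ⟨Finset.mem_univ _, hi'.2⟩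
  have hindS : ind S + c = X := by
    funext p
    have h2 : ∀ a : ZMod 2, (if a = 1 then (1 : ZMod 2) else 0) = a := by decide
    have h3 : ∀ a b : ZMod 2, a + b + b = a := by decide
    have h4 : ind S p = Y p := by
      rw [hind]
      show (if p ∈ S then (1 : ZMod 2) else 0) = Y p
      rw [← h2 (Y p)]
      by_cases hp : Y p = 1
      · rw [if_pos hp, if_pos]
        exact Finset.mem_filter.mpr ⟨Finset.mem_univ _, hp⟩
      · rw [if_neg hp, if_neg]
        intro hp'
        exact hp (Finset.mem_filter.mp hp').2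
    show ind S p + c p = X p
    rw [h4, hY]
    exact h3 _ _
  show q0 Y = h X
  have h5 : q0 Y = ∑ S' ∈ T, (∑ S'' ∈ S'.powerset, h' S'') * (if S' ⊆ S then 1 else 0) := by
    rw [hq0, Finset.sum_apply]
    apply Finset.sum_congr rfl
    intro S' _
    rw [Pi.smul_apply, smul_eq_mul, span_mono_eq]
  rw [h5]
  have h6 : ∑ S' ∈ T, (∑ S'' ∈ S'.powerset, h' S'') * (if S' ⊆ S then (1 : ZMod 2) else 0) =
      ∑ S' ∈ S.powerset, ∑ S'' ∈ S'.powerset, h' S'' := by
    symm
    have hsub : S.powerset ⊆ T := fun S' hS' => hST S' (Finset.mem_powerset.mp hS')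
    rw [← Finset.sum_subset hsub (f := fun S' => (∑ S'' ∈ S'.powerset, h' S'') *
      (if S' ⊆ S then (1 : ZMod 2) else 0))]
    · apply Finset.sum_congr rfl
      intro S' hS'
      rw [if_pos (Finset.mem_powerset.mp hS'), mul_one]
    · intro S' _ hS'
      rw [Finset.mem_powerset] at hS'
      rw [if_neg hS', mul_zero]
  rw [h6, span_mobius]
  show h (ind S + c) = h X
  rw [hindS]

/-- Functions on `E` spanned by functions of degree at most `D`. -/
theorem card_le_of_span {V : Type} [Fintype V] [DecidableEq V] (D : ℕ) (E : Finset (Pt V))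
    (h : ∀ f : Fn V, ∃ q ∈ VD V D, ∀ X ∈ E, q X = f X) :
    E.card ≤ (Finset.univ.filter fun S : Finset V => S.card ≤ D).card := by
  classical
  have hVD : VD V D = Submodule.span (ZMod 2)
      (Set.range fun S : {S : Finset V // S.card ≤ D} => mono S.1) := by
    unfold VD
    congr 1
    ext f
    constructor
    · rintro ⟨S, hS, rfl⟩
      exact ⟨⟨S, hS⟩, rfl⟩
    · rintro ⟨S, rfl⟩
      exact ⟨S.1, S.2, rfl⟩
  set L : ({S : Finset V // S.card ≤ D} → ZMod 2) → (E → ZMod 2) :=
    fun a X => ∑ S, a S * mono S.1 X.1 with hL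
  have hsurj : Function.Surjective L := by
    intro f
    obtain ⟨q, hq, hqE⟩ := h (fun X => if hX : X ∈ E then f ⟨X, hX⟩ else 0)
    rw [hVD, Submodule.mem_span_range_iff_exists_fun] at hq
    obtain ⟨a, ha⟩ := hq
    refine ⟨a, ?_⟩
    funext X
    have h1 := hqE X.1 X.2
    rw [dif_pos X.2] at h1
    have h2 : q X.1 = ∑ S, a S * mono S.1 X.1 := by
      rw [← ha, Finset.sum_apply]
      rfl
    rw [hL]
    show ∑ S, a S * mono S.1 X.1 = f X
    rw [← h2, h1]
  have h1 := Fintype.card_le_of_surjective L hsurj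
  rw [Fintype.card_fun, Fintype.card_fun, ZMod.card, Fintype.card_coe] at h1
  have h2 := (Nat.pow_le_pow_iff_right (by norm_num : 1 < 2)).mp h1
  rwa [Fintype.card_subtype] at h2

theorem card_le_of_cover (m N r θ D : ℕ) (c : Fin r → Pt (Fin N)) (P : Fn (Fin m × Fin N))
    (hP : P ∈ VD (Fin m × Fin N) D) (E : Finset (Pt (Fin m × Fin N)))
    (h1 : ∀ X ∈ E, ∀ σ : Fin m → Fin r, P (X + sh c σ) =
      if ∀ v, wt (fun i => X (v, i) + c (σ v) i) < θ then 1 else 0)
    (h2 : ∀ X ∈ E, ∃ σ : Fin m → Fin r, ∀ v, wt (fun i => X (v, i) + c (σ v) i) < θ) :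
    E.card ≤
      (Finset.univ.filter fun S : Finset (Fin m × Fin N) => S.card ≤ m * (θ - 1) + D).card := by
  classical
  apply card_le_of_span
  intro f
  rcases E.eq_empty_or_nonempty with hE | ⟨X0, hX0⟩
  · exact ⟨0, Submodule.zero_mem _, fun X hX => by simp [hE] at hX⟩
  have : Nonempty (Fin m → Fin r) := ⟨(h2 X0 hX0).choose⟩
  choose! τ hτ using h2
  have hq : ∀ σ : Fin m → Fin r, ∃ q ∈ VD (Fin m × Fin N) (m * (θ - 1)),
      ∀ X : Pt (Fin m × Fin N), (∀ v, wt (fun i => X (v, i) + c (σ v) i) < θ) →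
        q X = if τ X = σ then f X else 0 := fun σ =>
    ball_function m N θ (sh c σ) (fun X => if τ X = σ then f X else 0)
  choose q hqm hqe using hq
  refine ⟨∑ σ : Fin m → Fin r, (fun X => P (X + sh c σ)) * q σ, ?_, ?_⟩
  · apply Submodule.sum_mem
    intro σ _
    rw [add_comm]
    exact VD_mul (VD_translate hP _) (hqm σ)
  · intro X hX
    rw [Finset.sum_apply]
    rw [Finset.sum_eq_single (τ X)]
    · rw [Pi.mul_apply, h1 X hX, if_pos (hτ X hX), one_mul, hqe _ X (hτ X hX), if_pos rfl]
    · intro σ _ hσ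
      rw [Pi.mul_apply, h1 X hX]
      split_ifs with hb
      · rw [one_mul, hqe σ X hb, if_neg (fun he => hσ he.symm)]
      · rw [zero_mul]
    · intro hn
      exact absurd (Finset.mem_univ _) hn

end Vale.Agent.P346
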