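import Vale.Agent.P346.Circ
import Vale.Agent.P346.Cover
import Vale.Agent.P346.Digit
import Vale.Agent.P346.Proj
import Vale.Agent.P346.Span
import Vale.Agent.P346.FinalA

/-!
# P346: the lower bound
-/

namespace Vale.Agent.P346

/-- The product of indicators in `ZMod 2`. -/
theorem prod_ite_eq_ite_forall {m : ℕ} (p : Fin m → Prop) [DecidablePred p]
    [Decidable (∀ v, p v)] :
    (∏ v : Fin m, (if p v then (1 : ZMod 2) else 0)) = if ∀ v, p v then 1 else 0 := by
  by_cases h : ∀ v, p v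
  · rw [if_pos h]
    exact Finset.prod_eq_one fun v _ => if_pos (h v)
  · rw [if_neg h]
    push Not at h
    obtain ⟨v, hv⟩ := h
    exact Finset.prod_eq_zero (Finset.mem_univ v) (if_neg hv)

/-- The window lemma in the case at hand. -/
theorem choose_window' (d i w : ℕ) (hdi : d = 2 ^ i) (hi : 5 ≤ i)
    (h1 : 8 * d ^ 2 - 128 * d ≤ w) (h2 : w < 8 * d ^ 2 + 128 * d) :
    ((w.choose (128 * d) : ℕ) : ZMod 2) = if w < 8 * d ^ 2 then 1 else 0 := by
  have e1 : 128 * d = 2 ^ (i + 7) := by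
    rw [hdi, pow_add]; ring
  have e2 : 8 * d ^ 2 = 2 ^ (i + 7 + 1) * 2 ^ (i - 5) := by
    rw [hdi, ← pow_mul, ← pow_add, show (8 : ℕ) = 2 ^ 3 by norm_num, ← pow_add]
    congr 1; omega
  rw [e1, e2] at h1 h2
  rw [e1, e2]
  exact choose_window (i + 7) (2 ^ (i - 5)) w h1 h2 Nat.one_le_two_pow

/-- The set of good points. -/
theorem card_E {m N r : ℕ} (W : Finset (Pt (Fin N))) (c : Fin r → Pt (Fin N))
    (B : Finset (Pt (Fin m × Fin N))) :
    W.card ^ m ≤ ((WW (m := m) W).filter fun X => ∀ σ : Fin m → Fin r, X + sh c σ ∉ B).card +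
      r ^ m * B.card := by
  classical
  have h1 : (WW (m := m) W) ⊆
      ((WW (m := m) W).filter fun X => ∀ σ : Fin m → Fin r, X + sh c σ ∉ B) ∪
      (Finset.univ : Finset (Fin m → Fin r)).biUnion fun σ => B.image fun Y => Y - sh c σ := by
    intro X hX
    rw [Finset.mem_union, Finset.mem_filter]
    by_cases h : ∀ σ : Fin m → Fin r, X + sh c σ ∉ B
    · exact Or.inl ⟨hX, h⟩
    · right
      push Not at h
      obtain ⟨σ, hσ⟩ := h
      rw [Finset.mem_biUnion]
      exact ⟨σ, Finset.mem_univ _, Finset.mem_image.2 ⟨_, hσ, by simp⟩⟩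
  have h2 := (Finset.card_le_card h1).trans (Finset.card_union_le _ _)
  rw [card_WW] at h2
  refine h2.trans (Nat.add_le_add_left ?_ _)
  refine Finset.card_biUnion_le.trans ?_
  calc ∑ σ : Fin m → Fin r, (B.image fun Y => Y - sh c σ).card
      ≤ ∑ σ : Fin m → Fin r, B.card := Finset.sum_le_sum fun σ _ => Finset.card_image_le
    _ = r ^ m * B.card := by simp

/-- Core lower bound: any circuit (homogeneous or not) computing `IMM_{n,n}` over `F_2` has size
at least `2 ^ m`. -/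
theorem core (n d m : ℕ) (i : ℕ) (hdi : d = 2 ^ i) (hi : 5 ≤ i) (hm : 40 ≤ m) (hmd : 72 * m ≤ d)
    (hn : 0 < n) (hn2 : 2 * (8 * d ^ 2 + d) + 1 ≤ n)
    (C : Circuit (ZMod 2) (IVar n n)) (hC : C.out = IMM (ZMod 2) n n hn) :
    2 ^ m ≤ C.size := by
  classical
  by_contra hlt
  push Not at hlt
  have hd : 32 ≤ d := by omega
  -- the projection
  obtain ⟨a, ha, hX⟩ := imm_proj n (2 * (8 * d ^ 2 + d)) m (128 * d) hn hn2 (by nlinarith)
  obtain ⟨P, hP, hB⟩ := circ_approx C a ha (6 * m)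
  rw [hC] at hB
  set B : Finset (Pt (Fin m × Fin (2 * (8 * d ^ 2 + d)))) :=
    Finset.univ.filter fun x => MvPolynomial.eval (fun v => a v x) (IMM (ZMod 2) n n hn) ≠ P x
    with hBdef
  have hcard : Fintype.card (Fin m × Fin (2 * (8 * d ^ 2 + d))) = m * (2 * (8 * d ^ 2 + d)) := by
    simp
  rw [hcard] at hB
  obtain ⟨c, hc⟩ := exists_good d hd
  set E := (WW (m := m) (Wset d c)).filter fun X => ∀ σ : Fin m → Fin 24, X + sh c σ ∉ B with hE
  have hEc := card_E (m := m) (Wset d c) c B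
  rw [← hE] at hEc
  -- the dimension argument
  have hWin : ∀ X ∈ E, ∀ v, (fun t => X (v, t)) ∈ Wset d c := by
    intro X hX' v
    rw [hE, Finset.mem_filter, WW, Finset.mem_filter] at hX'
    exact hX'.1.2 v
  have key := card_le_of_cover m (2 * (8 * d ^ 2 + d)) 24 (8 * d ^ 2) (6 * m * (6 * m)) c P hP E
    (by
      intro X hX' σ
      have hnb : X + sh c σ ∉ B := by
        rw [hE, Finset.mem_filter] at hX'
        exact hX'.2 σ
      have h1 : MvPolynomial.eval (fun v => a v (X + sh c σ)) (IMM (ZMod 2) n n hn) =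
          P (X + sh c σ) := by
        by_contra hne
        exact hnb (by rw [hBdef, Finset.mem_filter]; exact ⟨Finset.mem_univ _, hne⟩)
      rw [← h1, hX, ← prod_ite_eq_ite_forall]
      refine Finset.prod_congr rfl fun v _ => ?_
      have hw := hWin X hX' v
      rw [Wset, Finset.mem_filter] at hw
      have hw1 := hw.2.1 (σ v)
      exact choose_window' d i _ hdi hi hw1.1 hw1.2)
    (by
      intro X hX'
      have : ∀ v, ∃ t : Fin 24, wt (fun i => X (v, i) + c t i) < 8 * d ^ 2 := by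
        intro v
        have hw := hWin X hX' v
        rw [Wset, Finset.mem_filter] at hw
        exact hw.2.2
      choose σ hσ using this
      exact ⟨σ, hσ⟩)
  have hoe := hoeff (Fin m × Fin (2 * (8 * d ^ 2 + d))) (m * (8 * d ^ 2 - 1) + 6 * m * (6 * m))
    (by
      rw [hcard]
      push_cast [show 1 ≤ 8 * d ^ 2 by nlinarith]
      have h72 : (72 : ℝ) * m ≤ d := by exact_mod_cast hmd
      have hm0 : (0 : ℝ) ≤ m := Nat.cast_nonneg m
      nlinarith [mul_le_mul_of_nonneg_left h72 hm0])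
    (by rw [hcard]; positivity)
  rw [hcard] at hoe
  -- numerics
  have h2pos : (0 : ℝ) < 2 ^ (m * (2 * (8 * d ^ 2 + d))) := by positivity
  have h72 : (72 : ℝ) * m ≤ d := by exact_mod_cast hmd
  have hm0 : (0 : ℝ) < m := by exact_mod_cast (by omega : 0 < m)
  have hd0 : (0 : ℝ) < d := by exact_mod_cast (by omega : 0 < d)
  refine numeric d m hd hm ((E.card : ℝ) / 2 ^ (m * (2 * (8 * d ^ 2 + d)))) ?_ ?_
  · rw [le_div_iff₀ h2pos]
    have hW : (79 : ℝ) / 80 * 2 ^ (2 * (8 * d ^ 2 + d)) ≤ ((Wset d c).card : ℝ) := by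
      have : (79 : ℝ) * 2 ^ (2 * (8 * d ^ 2 + d)) ≤ 80 * ((Wset d c).card : ℝ) := by
        exact_mod_cast hc
      linarith
    have hWm : ((79 : ℝ) / 80) ^ m * 2 ^ (m * (2 * (8 * d ^ 2 + d))) ≤
        ((Wset d c).card : ℝ) ^ m := by
      have := pow_le_pow_left₀ (by positivity) hW m
      rwa [mul_pow, ← pow_mul, mul_comm (2 * (8 * d ^ 2 + d)) m] at this
    have hB2 : (B.card : ℝ) * 32 ^ m ≤ 2 ^ (m * (2 * (8 * d ^ 2 + d))) := by
      have h1 : B.card * 2 ^ (6 * m) ≤ 2 ^ m * 2 ^ (m * (2 * (8 * d ^ 2 + d))) :=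
        hB.trans (Nat.mul_le_mul_right _ hlt.le)
      have h2 : (B.card : ℝ) * 2 ^ (6 * m) ≤ 2 ^ m * 2 ^ (m * (2 * (8 * d ^ 2 + d))) := by
        exact_mod_cast h1
      have h3 : (2 : ℝ) ^ (6 * m) = 2 ^ m * 32 ^ m := by
        rw [pow_mul, ← mul_pow]; norm_num
      rw [h3] at h2
      have h4 : (0 : ℝ) < 2 ^ m := by positivity
      refine le_of_mul_le_mul_left ?_ h4
      linarith
    have hB3 : (24 : ℝ) ^ m * B.card ≤ (3 / 4) ^ m * 2 ^ (m * (2 * (8 * d ^ 2 + d))) := by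
      have h5 : (24 : ℝ) ^ m = (3 / 4) ^ m * 32 ^ m := by rw [← mul_pow]; norm_num
      rw [h5, mul_assoc, mul_comm (32 ^ m : ℝ)]
      exact mul_le_mul_of_nonneg_left hB2 (by positivity)
    have h34 : ((3 : ℝ) / 4) ^ m ≤ 1 / 2 * ((79 : ℝ) / 80) ^ m := by
      obtain ⟨q, rfl⟩ : ∃ q, m = 3 + q := ⟨m - 3, by omega⟩
      rw [pow_add, pow_add]
      have : ((3 : ℝ) / 4) ^ q ≤ ((79 : ℝ) / 80) ^ q :=
        pow_le_pow_left₀ (by norm_num) (by norm_num) q
      have h0 : (0 : ℝ) ≤ ((3 : ℝ) / 4) ^ q := by positivity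
      nlinarith
    have hEc' : ((Wset d c).card : ℝ) ^ m ≤ (E.card : ℝ) + 24 ^ m * B.card := by
      exact_mod_cast hEc
    have h6 := mul_le_mul_of_nonneg_right h34 h2pos.le
    nlinarith
  · rw [div_le_iff₀ h2pos, mul_comm (Real.exp _)]
    have hk : (E.card : ℝ) ≤ ((Finset.univ.filter fun S : Finset (Fin m × Fin (2 * (8 * d ^ 2 + d)))
        => S.card ≤ m * (8 * d ^ 2 - 1) + 6 * m * (6 * m)).card : ℝ) := by
      exact_mod_cast key
    refine (hk.trans hoe).trans ?_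
    refine mul_le_mul_of_nonneg_left ?_ h2pos.le
    rw [Real.exp_le_exp]
    push_cast [show 1 ≤ 8 * d ^ 2 by nlinarith]
    rw [neg_le_neg_iff]
    refine div_le_div_of_nonneg_right ?_ (by positivity)
    refine mul_le_mul_of_nonneg_left ?_ (by norm_num)
    refine pow_le_pow_left₀ (by positivity) ?_ 2
    nlinarith [mul_le_mul_of_nonneg_left h72 hm0.le]

end Vale.Agent.P346
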