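import Vale.Agent.P346.Deg

/-!
# P346: binomial estimates
-/

namespace Vale.Agent.P346

theorem card_wt_eq (N k : ℕ) :
    (Finset.univ.filter fun x : Pt (Fin N) => wt x = k).card = N.choose k := by
  classical
  have h0 : (Finset.powersetCard k (Finset.univ : Finset (Fin N))).card = N.choose k := by
    rw [Finset.card_powersetCard, Finset.card_univ, Fintype.card_fin]
  rw [← h0]
  refine Finset.card_nbij' (fun x => Finset.univ.filter fun i => x i = 1)
    (fun S i => if i ∈ S then 1 else 0) ?_ ?_ ?_ ?_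
  · intro x hx
    simp only [Finset.coe_filter, Finset.mem_univ, true_and, Set.mem_ofPred_eq] at hx
    rw [Finset.mem_coe, Finset.mem_powersetCard]
    exact ⟨Finset.subset_univ _, hx⟩
  · intro S hS
    have hS' : S.card = k := by
      have := (Finset.mem_powersetCard.mp (Finset.mem_coe.mp hS)).2
      exact this
    simp only [Finset.coe_filter, Finset.mem_univ, true_and, Set.mem_ofPred_eq]
    unfold wt
    have : (Finset.univ.filter fun i => (if i ∈ S then (1 : ZMod 2) else 0) = 1) = S := by
      ext i; by_cases hi : i ∈ S <;> simp [hi]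
    rw [this, hS']
  · intro x _
    funext i
    simp only [Finset.mem_filter, Finset.mem_univ, true_and]
    by_cases hi : x i = 1
    · simp [hi]
    · have : x i = 0 := by
        generalize x i = a at hi ⊢
        fin_cases a
        · rfl
        · exact absurd rfl hi
      simp [this]
  · intro S _
    ext i
    by_cases hi : i ∈ S <;> simp [hi]

theorem centralBinom_sq (n : ℕ) : n.centralBinom ^ 2 * (2 * n + 1) ≤ 16 ^ n := by
  induction n with
  | zero => simp
  | succ n ih =>
    have h := Nat.succ_mul_centralBinom_succ n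
    have h2 : (n + 1) ^ 2 * ((n + 1).centralBinom ^ 2 * (2 * (n + 1) + 1)) ≤
        (n + 1) ^ 2 * 16 ^ (n + 1) := by
      calc (n + 1) ^ 2 * ((n + 1).centralBinom ^ 2 * (2 * (n + 1) + 1))
          = ((n + 1) * (n + 1).centralBinom) ^ 2 * (2 * n + 3) := by ring
        _ = (2 * (2 * n + 1) * n.centralBinom) ^ 2 * (2 * n + 3) := by rw [h]
        _ = (n.centralBinom ^ 2 * (2 * n + 1)) * (4 * (2 * n + 1) * (2 * n + 3)) := by ring
        _ ≤ 16 ^ n * (4 * (2 * n + 1) * (2 * n + 3)) := Nat.mul_le_mul_right _ ih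
        _ ≤ 16 ^ n * (16 * (n + 1) ^ 2) := by
            apply Nat.mul_le_mul_left
            nlinarith
        _ = (n + 1) ^ 2 * 16 ^ (n + 1) := by ring
    exact Nat.le_of_mul_le_mul_left h2 (by positivity)

lemma card_wt_lt (N m : ℕ) :
    (Finset.univ.filter fun x : Pt (Fin N) => wt x < m).card = ∑ k ∈ Finset.range m, N.choose k := by
  classical
  induction m with
  | zero => simp
  | succ m ih =>
    rw [Finset.sum_range_succ, ← ih, ← card_wt_eq, ← Finset.card_union_of_disjoint]
    · congr 1
      ext x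
      simp only [Finset.mem_filter, Finset.mem_univ, true_and, Finset.mem_union]
      omega
    · rw [Finset.disjoint_filter]
      intro x _ h1 h2
      omega

lemma half_sum (h : ℕ) :
    2 * ∑ k ∈ Finset.range h, (2 * h).choose k + h.centralBinom = 4 ^ h := by
  have h1 := Nat.sum_range_choose (2 * h)
  have e1 : 2 * h + 1 = (h + 1) + h := by ring
  rw [e1, Finset.sum_range_add, Finset.sum_range_succ] at h1
  have e2 : ∑ x ∈ Finset.range h, (2 * h).choose (h + 1 + x) =
      ∑ k ∈ Finset.range h, (2 * h).choose k := by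
    rw [← Finset.sum_range_reflect]
    refine Finset.sum_congr rfl (fun x hx => ?_)
    rw [Finset.mem_range] at hx
    rw [← Nat.choose_symm (by omega : h + 1 + (h - 1 - x) ≤ 2 * h)]
    congr 1
    omega
  rw [e2] at h1
  have e3 : (2 : ℕ) ^ (2 * h) = 4 ^ h := by rw [pow_mul]; norm_num
  rw [e3] at h1
  unfold Nat.centralBinom
  omega

/-- At least a fifth of the cube has weight below `N/2 - √N/4`. -/
theorem tail_lower (d : ℕ) (hd : 3 ≤ d) :
    2 ^ (2 * (8 * d ^ 2 + d)) ≤
      5 * (Finset.univ.filter fun x : Pt (Fin (2 * (8 * d ^ 2 + d))) => wt x < 8 * d ^ 2).card := by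
  rw [card_wt_lt]
  set h := 8 * d ^ 2 + d with hh
  have e3 : (2 : ℕ) ^ (2 * h) = 4 ^ h := by rw [pow_mul]; norm_num
  rw [e3]
  have h1 := half_sum h
  have h2 : ∑ k ∈ Finset.range h, (2 * h).choose k ≤
      ∑ k ∈ Finset.range (8 * d ^ 2), (2 * h).choose k + d * h.centralBinom := by
    have : h = 8 * d ^ 2 + d := hh
    conv_lhs => rw [show Finset.range h = Finset.range (8 * d ^ 2 + d) by rw [← this]]
    rw [Finset.sum_range_add]
    apply Nat.add_le_add_left
    calc ∑ x ∈ Finset.range d, (2 * h).choose (8 * d ^ 2 + x)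
        ≤ ∑ x ∈ Finset.range d, h.centralBinom :=
          Finset.sum_le_sum (fun x _ => Nat.choose_le_centralBinom _ _)
      _ = d * h.centralBinom := by simp
  have h3 := centralBinom_sq h
  set A := ∑ k ∈ Finset.range (8 * d ^ 2), (2 * h).choose k with hA
  set cb := h.centralBinom with hcb
  set M := 4 ^ h with hM
  have h16 : 16 ^ h = M ^ 2 := by
    rw [hM, ← pow_mul, mul_comm h 2, pow_mul]; norm_num
  rw [h16] at h3
  have h4 : 5 * ((2 * d + 1) * cb) ≤ 3 * M := by
    have : (5 * ((2 * d + 1) * cb)) ^ 2 ≤ (3 * M) ^ 2 := by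
      calc (5 * ((2 * d + 1) * cb)) ^ 2 = (25 * (2 * d + 1) ^ 2) * cb ^ 2 := by ring
        _ ≤ (9 * (2 * h + 1)) * cb ^ 2 := by
            apply Nat.mul_le_mul_right
            rw [hh]
            nlinarith
        _ = 9 * (cb ^ 2 * (2 * h + 1)) := by ring
        _ ≤ 9 * M ^ 2 := Nat.mul_le_mul_left _ h3
        _ = (3 * M) ^ 2 := by ring
    exact (Nat.pow_le_pow_iff_left (by norm_num)).mp this
  nlinarith

end Vale.Agent.P346
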