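import Mathlib

/-!
# P346: depth-five circuits and iterated matrix multiplication (definitions)
-/

namespace Vale.Agent.P346

/-- The variables of `IMM_{w,d}`: `(l, i, j)` is the entry `(i, j)` of the `l`-th matrix. -/
abbrev IVar (w d : ℕ) : Type := Fin d × Fin w × Fin w

/-- The `l`-th generic `w × w` matrix, whose entries are distinct variables. -/
noncomputable def genMat (K : Type) [Field K] (w d : ℕ) (l : Fin d) :
    Matrix (Fin w) (Fin w) (MvPolynomial (IVar w d) K) :=
  Matrix.of fun i j => MvPolynomial.X (l, i, j)

/-- `IMM_{w,d}`: the top left entry of the product of the `d` generic `w × w` matrices. -/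
noncomputable def IMM (K : Type) [Field K] (w d : ℕ) (hw : 0 < w) :
    MvPolynomial (IVar w d) K :=
  (List.ofFn (genMat K w d)).prod ⟨0, hw⟩ ⟨0, hw⟩

/-- A `ΣΠΣΠΣ` circuit over `K` with variables in `V`. It has `n0` leaves (variables or elements
of `K`), `n1` bottom sum gates, `n2` lower product gates, `n3` middle sum gates, `n4` upper product
gates and one output sum gate. Edges join consecutive layers only. A sum gate has a set of
children, with a coefficient for each; a product gate has a multiset of children. -/
structure Circuit (K V : Type) where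
  n0 : ℕ
  n1 : ℕ
  n2 : ℕ
  n3 : ℕ
  n4 : ℕ
  leaf : Fin n0 → V ⊕ K
  s1 : Fin n1 → Finset (Fin n0)
  c1 : Fin n1 → Fin n0 → K
  p2 : Fin n2 → Multiset (Fin n1)
  s3 : Fin n3 → Finset (Fin n2)
  c3 : Fin n3 → Fin n2 → K
  p4 : Fin n4 → Multiset (Fin n3)
  s5 : Finset (Fin n4)
  c5 : Fin n4 → K

namespace Circuit

variable {K V : Type}

/-- The number of vertices. -/
def size (C : Circuit K V) : ℕ := C.n0 + C.n1 + C.n2 + C.n3 + C.n4 + 1

/-- The formal degree of a leaf: `1` for a variable, `0` for a constant. -/
def leafDeg (C : Circuit K V) (l : Fin C.n0) : ℕ := Sum.elim (fun _ => 1) (fun _ => 0) (C.leaf l)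

/-- Syntactic homogeneity: with formal degrees (variables `1`, constants `0`, product gates adding
the degrees of their inputs with multiplicity, sum gates having the common degree of their
inputs), all inputs of each sum gate have equal degree. Here `d1 g`, `d3 g`, `d5` are the formal
degrees of the bottom sums, of the middle sums and of the output. -/
def Homogeneous (C : Circuit K V) : Prop :=
  ∃ (d1 : Fin C.n1 → ℕ) (d3 : Fin C.n3 → ℕ) (d5 : ℕ),
    (∀ g, ∀ l ∈ C.s1 g, C.leafDeg l = d1 g) ∧
    (∀ g, ∀ h ∈ C.s3 g, ((C.p2 h).map d1).sum = d3 g) ∧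
    (∀ h ∈ C.s5, ((C.p4 h).map d3).sum = d5)

variable [Field K]

/-- Polynomials computed by the leaves. -/
noncomputable def v0 (C : Circuit K V) (l : Fin C.n0) : MvPolynomial V K :=
  Sum.elim MvPolynomial.X MvPolynomial.C (C.leaf l)

/-- Polynomials computed by the bottom sums. -/
noncomputable def v1 (C : Circuit K V) (g : Fin C.n1) : MvPolynomial V K :=
  ∑ l ∈ C.s1 g, MvPolynomial.C (C.c1 g l) * C.v0 l

/-- Polynomials computed by the lower products. -/
noncomputable def v2 (C : Circuit K V) (g : Fin C.n2) : MvPolynomial V K :=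
  ((C.p2 g).map C.v1).prod

/-- Polynomials computed by the middle sums. -/
noncomputable def v3 (C : Circuit K V) (g : Fin C.n3) : MvPolynomial V K :=
  ∑ h ∈ C.s3 g, MvPolynomial.C (C.c3 g h) * C.v2 h

/-- Polynomials computed by the upper products. -/
noncomputable def v4 (C : Circuit K V) (g : Fin C.n4) : MvPolynomial V K :=
  ((C.p4 g).map C.v3).prod

/-- The polynomial computed by the output gate. -/
noncomputable def out (C : Circuit K V) : MvPolynomial V K :=
  ∑ h ∈ C.s5, MvPolynomial.C (C.c5 h) * C.v4 h

end Circuit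

/-- `s_K(n)`: the minimum size of a syntactically homogeneous `ΣΠΣΠΣ` circuit over `K` computing
`IMM_{n,n}` as a formal polynomial. -/
noncomputable def minSize (K : Type) [Field K] (n : ℕ) (hn : 0 < n) : ℕ :=
  sInf {s | ∃ C : Circuit K (IVar n n), C.Homogeneous ∧ C.out = IMM K n n hn ∧ C.size = s}

end Vale.Agent.P346
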