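import Vale.Agent.P346.Defs

/-!
# P346: functions on `F_2^V` of bounded degree
-/

namespace Vale.Agent.P346

/-- Points of `F_2^V`. -/
abbrev Pt (V : Type) : Type := V → ZMod 2

/-- Functions on `F_2^V`. -/
abbrev Fn (V : Type) : Type := Pt V → ZMod 2

/-- Hamming weight. -/
def wt {V : Type} [Fintype V] (x : Pt V) : ℕ := (Finset.univ.filter fun i => x i = 1).card

/-- The monomial of a set. -/
def mono {V : Type} (S : Finset V) : Fn V := fun x => ∏ i ∈ S, x i

/-- Functions of degree at most `D`. -/
def VD (V : Type) (D : ℕ) : Submodule (ZMod 2) (Fn V) :=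
  Submodule.span (ZMod 2) {f | ∃ S : Finset V, S.card ≤ D ∧ f = mono S}

section

variable {V : Type}

theorem mono_mem {S : Finset V} {D : ℕ} (h : S.card ≤ D) : mono S ∈ VD V D :=
  Submodule.subset_span ⟨S, h, rfl⟩

theorem VD_mono {a b : ℕ} (h : a ≤ b) : VD V a ≤ VD V b := by
  apply Submodule.span_mono
  rintro f ⟨S, hS, rfl⟩
  exact ⟨S, hS.trans h, rfl⟩

theorem const_mem (a : ZMod 2) (D : ℕ) : (fun _ => a : Fn V) ∈ VD V D := by
  have h : (fun _ => a : Fn V) = a • mono (∅ : Finset V) := by
    funext x
    simp [mono]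
  rw [h]
  exact Submodule.smul_mem _ _ (mono_mem (by simp))

theorem coord_mem (i : V) {D : ℕ} (hD : 1 ≤ D) : (fun x => x i : Fn V) ∈ VD V D := by
  have h : (fun x => x i : Fn V) = mono ({i} : Finset V) := by
    funext x
    simp [mono]
  rw [h]
  exact mono_mem (by simpa using hD)

theorem zmod2_sq (a : ZMod 2) : a * a = a := by
  revert a; decide

theorem mono_mul_mono [DecidableEq V] (S T : Finset V) : mono S * mono T = mono (S ∪ T) := by
  funext x
  simp only [Pi.mul_apply, mono]
  have h : ∀ A : Finset V, (∏ i ∈ A, x i) = if ∀ i ∈ A, x i = 1 then 1 else 0 := by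
    intro A
    split_ifs with h
    · exact Finset.prod_eq_one h
    · push Not at h
      obtain ⟨i, hi, hx⟩ := h
      apply Finset.prod_eq_zero hi
      revert hx
      generalize x i = a
      revert a
      decide
  rw [h, h, h]
  by_cases h1 : ∀ i ∈ S, x i = 1
  · by_cases h2 : ∀ i ∈ T, x i = 1
    · rw [if_pos h1, if_pos h2, if_pos, one_mul]
      intro i hi
      rcases Finset.mem_union.mp hi with hi | hi
      · exact h1 i hi
      · exact h2 i hi
    · rw [if_neg h2, mul_zero, if_neg]
      intro h3
      exact h2 fun i hi => h3 i (Finset.mem_union_right _ hi)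
  · rw [if_neg h1, zero_mul, if_neg]
    intro h3
    exact h1 fun i hi => h3 i (Finset.mem_union_left _ hi)

theorem VD_mul {a b : ℕ} {f g : Fn V} (hf : f ∈ VD V a) (hg : g ∈ VD V b) :
    f * g ∈ VD V (a + b) := by
  classical
  induction hf using Submodule.span_induction with
  | mem f hf =>
    obtain ⟨S, hS, rfl⟩ := hf
    induction hg using Submodule.span_induction with
    | mem g hg =>
      obtain ⟨T, hT, rfl⟩ := hg
      rw [mono_mul_mono]
      exact mono_mem ((Finset.card_union_le S T).trans (Nat.add_le_add hS hT))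
    | zero =>
      rw [mul_zero]
      exact Submodule.zero_mem _
    | add g1 g2 _ _ h1 h2 =>
      rw [mul_add]
      exact Submodule.add_mem _ h1 h2
    | smul c g1 _ h1 =>
      rw [mul_smul_comm]
      exact Submodule.smul_mem _ _ h1
  | zero =>
    rw [zero_mul]
    exact Submodule.zero_mem _
  | add f1 f2 _ _ h1 h2 =>
    rw [add_mul]
    exact Submodule.add_mem _ h1 h2
  | smul c f1 _ h1 =>
    rw [smul_mul_assoc]
    exact Submodule.smul_mem _ _ h1

theorem VD_prod {ι : Type} (s : Finset ι) (f : ι → Fn V) (D : ℕ) (hf : ∀ i ∈ s, f i ∈ VD V D) :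
    (∏ i ∈ s, f i) ∈ VD V (s.card * D) := by
  classical
  induction s using Finset.induction_on with
  | empty =>
    simp only [Finset.prod_empty, Finset.card_empty, zero_mul]
    exact const_mem 1 0
  | insert a s ha ih =>
    rw [Finset.prod_insert ha, Finset.card_insert_of_notMem ha, Nat.succ_mul, add_comm]
    exact VD_mul (hf a (Finset.mem_insert_self a s))
      (ih fun i hi => hf i (Finset.mem_insert_of_mem hi))

/-- Translation invariance. -/
theorem VD_translate {D : ℕ} {f : Fn V} (hf : f ∈ VD V D) (c : Pt V) :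
    (fun x => f (x + c)) ∈ VD V D := by
  induction hf using Submodule.span_induction with
  | mem f hf =>
    obtain ⟨S, hS, rfl⟩ := hf
    have h : (fun x : Pt V => mono S (x + c)) =
        ∏ i ∈ S, ((fun x => x i : Fn V) + fun _ => c i) := by
      funext x
      simp [mono, Finset.prod_apply]
    rw [h]
    refine VD_mono ?_ (VD_prod S _ 1 fun i _ =>
      Submodule.add_mem _ (coord_mem i le_rfl) (const_mem _ _))
    rw [mul_one]
    exact hS
  | zero => exact Submodule.zero_mem _
  | add f1 f2 _ _ h1 h2 => exact Submodule.add_mem _ h1 h2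
  | smul a f1 _ h1 => exact Submodule.smul_mem _ a h1

end

end Vale.Agent.P346
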