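import Vale.Agent.P346.Defs

/-!
# P346: existence of a homogeneous circuit
-/

namespace Vale.Agent.P346

/-- `P` is a sum of products of `n` variables -/
def ex_Rep {K V : Type} [Field K] (P : MvPolynomial V K) (n : ℕ) : Prop :=
  ∃ L : List (Multiset V), (∀ m ∈ L, Multiset.card m = n) ∧
    P = (L.map fun m => (m.map fun v => (MvPolynomial.X v : MvPolynomial V K)).prod).sum

theorem ex_zero {K V : Type} [Field K] (n : ℕ) : ex_Rep (0 : MvPolynomial V K) n :=
  ⟨[], by simp, by simp⟩

theorem ex_one {K V : Type} [Field K] : ex_Rep (1 : MvPolynomial V K) 0 :=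
  ⟨[0], by simp, by simp⟩

theorem ex_X {K V : Type} [Field K] (v : V) : ex_Rep (MvPolynomial.X v : MvPolynomial V K) 1 :=
  ⟨[{v}], by simp, by simp⟩

theorem ex_add {K V : Type} [Field K] {P Q : MvPolynomial V K} {n : ℕ} (hP : ex_Rep P n)
    (hQ : ex_Rep Q n) : ex_Rep (P + Q) n := by
  obtain ⟨L, h1, rfl⟩ := hP
  obtain ⟨M, h2, rfl⟩ := hQ
  refine ⟨L ++ M, ?_, by simp⟩
  intro m hm
  rcases List.mem_append.1 hm with h | h
  · exact h1 m h
  · exact h2 m h

theorem ex_sum {K V ι : Type} [Field K] (s : Finset ι) (f : ι → MvPolynomial V K) {n : ℕ}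
    (h : ∀ i ∈ s, ex_Rep (f i) n) : ex_Rep (∑ i ∈ s, f i) n := by
  classical
  induction s using Finset.induction_on with
  | empty => simpa using ex_zero n
  | insert a s ha ih =>
    rw [Finset.sum_insert ha]
    exact ex_add (h a (Finset.mem_insert_self a s))
      (ih fun i hi => h i (Finset.mem_insert_of_mem hi))

theorem ex_X_mul {K V : Type} [Field K] (v : V) {P : MvPolynomial V K} {n : ℕ}
    (hP : ex_Rep P n) : ex_Rep (MvPolynomial.X v * P) (n + 1) := by
  obtain ⟨L, h1, rfl⟩ := hP
  refine ⟨L.map fun m => v ::ₘ m, ?_, ?_⟩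
  · intro m hm
    obtain ⟨m', hm', rfl⟩ := List.mem_map.1 hm
    rw [Multiset.card_cons, h1 m' hm']
  · rw [← List.sum_map_mul_left, List.map_map]
    congr 1
    apply List.map_congr_left
    intro m _
    simp

theorem ex_prod (K : Type) [Field K] (w d : ℕ) (L : List (Fin d)) (i j : Fin w) :
    ex_Rep ((L.map (genMat K w d)).prod i j) L.length := by
  induction L generalizing i j with
  | nil =>
    simp only [List.map_nil, List.prod_nil, List.length_nil, Matrix.one_apply]
    split_ifs
    · exact ex_one
    · exact ex_zero 0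
  | cons l L ih =>
    rw [List.map_cons, List.prod_cons, Matrix.mul_apply, List.length_cons]
    refine ex_sum _ _ fun k _ => ?_
    exact ex_X_mul _ (ih k j)

/-- There is a syntactically homogeneous circuit. -/
theorem exists_circuit (K : Type) [Field K] (n : ℕ) (hn : 0 < n) :
    ∃ C : Circuit K (IVar n n), C.Homogeneous ∧ C.out = IMM K n n hn := by
  classical
  have h := ex_prod K n n (List.finRange n) ⟨0, hn⟩ ⟨0, hn⟩
  rw [List.length_finRange, ← List.ofFn_eq_map] at h
  obtain ⟨L, h1, h2⟩ := h
  let e : IVar n n ≃ Fin (Fintype.card (IVar n n)) := Fintype.equivFin _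
  let N := Fintype.card (IVar n n)
  let C : Circuit K (IVar n n) :=
    { n0 := N
      n1 := N
      n2 := N
      n3 := N
      n4 := L.length
      leaf := fun l => Sum.inl (e.symm l)
      s1 := fun g => {g}
      c1 := fun _ _ => 1
      p2 := fun g => {g}
      s3 := fun g => {g}
      c3 := fun _ _ => 1
      p4 := fun h => (L.get h).map e
      s5 := Finset.univ
      c5 := fun _ => 1 }
  refine ⟨C, ⟨fun _ => 1, fun _ => 1, n, ?_, ?_, ?_⟩, ?_⟩
  · intro g l _
    rfl
  · intro g h _
    show (Multiset.map (fun _ => 1) ({h} : Multiset (Fin N))).sum = 1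
    simp
  · intro h _
    show (Multiset.map (fun _ => 1) ((L.get h).map e)).sum = n
    rw [Multiset.map_map]
    simp only [Function.comp_def, Multiset.map_const', Multiset.sum_replicate, smul_eq_mul,
      mul_one]
    exact h1 _ (List.get_mem L h)
  · have hv0 : ∀ l, C.v0 l = MvPolynomial.X (e.symm l) := fun l => rfl
    have hv1 : ∀ l, C.v1 l = MvPolynomial.X (e.symm l) := by
      intro l
      show ∑ l' ∈ ({l} : Finset (Fin N)), MvPolynomial.C (1 : K) * C.v0 l' = _
      rw [Finset.sum_singleton, hv0]
      simp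
    have hv2 : ∀ l, C.v2 l = MvPolynomial.X (e.symm l) := by
      intro l
      show (Multiset.map C.v1 ({l} : Multiset (Fin N))).prod = _
      rw [Multiset.map_singleton, Multiset.prod_singleton, hv1]
    have hv3 : ∀ l, C.v3 l = MvPolynomial.X (e.symm l) := by
      intro l
      show ∑ l' ∈ ({l} : Finset (Fin N)), MvPolynomial.C (1 : K) * C.v2 l' = _
      rw [Finset.sum_singleton, hv2]
      simp
    have hv4 : ∀ h, C.v4 h = ((L.get h).map fun v =>
        (MvPolynomial.X v : MvPolynomial (IVar n n) K)).prod := by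
      intro h
      show (Multiset.map C.v3 ((L.get h).map e)).prod = _
      rw [Multiset.map_map]
      congr 1
      apply Multiset.map_congr rfl
      intro v _
      simp only [Function.comp_apply]
      rw [hv3, Equiv.symm_apply_apply]
    show ∑ h : Fin L.length, MvPolynomial.C (1 : K) * C.v4 h = _
    simp only [hv4, map_one, one_mul]
    unfold IMM
    rw [h2, ← List.sum_ofFn]
    congr 1
    apply List.ext_get
    · simp
    · intro k h3 h4
      simp

end Vale.Agent.P346
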