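import Vale.Agent.P346.Core
import Vale.Agent.P346.Exist

/-!
# P346: the main theorem
-/

namespace Vale.Agent.P346

/-- The lower bound holds for all circuits, homogeneous or not. -/
theorem main_all : ∃ n₀ : ℕ, ∀ n ≥ n₀, ∀ hn : 0 < n,
    ∀ C : Circuit (ZMod 2) (IVar n n), C.out = IMM (ZMod 2) n n hn →
      (2 : ℝ) ^ (√(n : ℝ) / 1000) ≤ (C.size : ℝ) := by
  classical
  refine ⟨2 * (8 * (2 ^ 12) ^ 2 + 2 ^ 12) + 1, fun n hn0 hn C hC => ?_⟩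
  have hn0' : 2 * (8 * (2 ^ 12) ^ 2 + 2 ^ 12) + 1 ≤ n := hn0
  let P : ℕ → Prop := fun i => 2 * (8 * (2 ^ i) ^ 2 + 2 ^ i) + 1 ≤ n
  have h12 : 12 ≤ n := le_trans (by norm_num) hn0'
  obtain ⟨i, hi⟩ : ∃ i, i = Nat.findGreatest P n := ⟨_, rfl⟩
  have hPi : 2 * (8 * (2 ^ i) ^ 2 + 2 ^ i) + 1 ≤ n := by
    have := Nat.findGreatest_spec (P := P) h12 hn0'
    rw [← hi] at this
    exact this
  have hi12 : 12 ≤ i := by
    rw [hi]
    exact Nat.le_findGreatest h12 hn0'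
  obtain ⟨d, hd⟩ : ∃ d, d = 2 ^ i := ⟨_, rfl⟩
  rw [← hd] at hPi
  have hid : i < d := by rw [hd]; exact Nat.lt_two_pow_self
  have hin : i + 1 ≤ n := by
    have : 1 ≤ d := by omega
    nlinarith
  have hmax : n < 2 * (8 * (2 * d) ^ 2 + 2 * d) + 1 := by
    have h := Nat.findGreatest_is_greatest (P := P) (n := n) (k := i + 1) (by omega) hin
    have h' : ¬ (2 * (8 * (2 ^ (i + 1)) ^ 2 + 2 ^ (i + 1)) + 1 ≤ n) := h
    have e : 2 ^ (i + 1) = 2 * d := by rw [hd, pow_succ]; ring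
    rw [e] at h'
    omega
  have hd4096 : 4096 ≤ d := by
    rw [hd]
    calc 4096 = 2 ^ 12 := by norm_num
      _ ≤ 2 ^ i := Nat.pow_le_pow_right (by norm_num) hi12
  obtain ⟨m, hm⟩ : ∃ m, m = d / 72 := ⟨_, rfl⟩
  have hm40 : 40 ≤ m := by omega
  have hmd : 72 * m ≤ d := by omega
  have hdm : d < 72 * m + 72 := by omega
  have hcore := core n d m i hd (by omega) hm40 hmd hn hPi C hC
  have hcast : (2 : ℝ) ^ m ≤ (C.size : ℝ) := by exact_mod_cast hcore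
  refine le_trans ?_ hcast
  rw [← Real.rpow_natCast]
  apply Real.rpow_le_rpow_of_exponent_le (by norm_num)
  have hdR : (4096 : ℝ) ≤ d := by exact_mod_cast hd4096
  have hsq : √(n : ℝ) ≤ 8.1 * d := by
    apply Real.sqrt_le_iff.2
    refine ⟨by positivity, ?_⟩
    have : (n : ℝ) ≤ 2 * (8 * (2 * d) ^ 2 + 2 * d) + 1 := by exact_mod_cast hmax.le
    nlinarith
  have hdmR : (d : ℝ) < 72 * m + 72 := by exact_mod_cast hdm
  have h3 : √(n : ℝ) / 1000 ≤ 0.0081 * d := by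
    rw [div_le_iff₀ (by norm_num)]
    linarith
  refine h3.trans ?_
  linarith

theorem main : ∃ n₀ : ℕ, ∀ n ≥ n₀, ∀ hn : 0 < n,
    (2 : ℝ) ^ (√(n : ℝ) / 1000) ≤ (minSize (ZMod 2) n hn : ℝ) := by
  obtain ⟨n₀, h⟩ := main_all
  refine ⟨n₀, fun n hn0 hn => ?_⟩
  have hne : {s | ∃ C : Circuit (ZMod 2) (IVar n n), C.Homogeneous ∧
      C.out = IMM (ZMod 2) n n hn ∧ C.size = s}.Nonempty := by
    obtain ⟨C, h1, h2⟩ := exists_circuit (ZMod 2) n hn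
    exact ⟨C.size, C, h1, h2, rfl⟩
  obtain ⟨C, _, hC, hs⟩ := Nat.sInf_mem hne
  have hmin : C.size = minSize (ZMod 2) n hn := hs
  rw [← hmin]
  exact h n hn0 hn C hC

end Vale.Agent.P346
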