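import Vale.Agent.P346.Deg

/-!
# P346: low degree approximation of products (Razborov, Smolensky)
-/

namespace Vale.Agent.P346

variable {V : Type} [Fintype V] [DecidableEq V]

/-- Half of the vectors are orthogonal to a nonzero vector. -/
theorem rs_half {ι : Type} [Fintype ι] [DecidableEq ι] (a : ι → ZMod 2) (i0 : ι)
    (h0 : a i0 = 1) :
    (Finset.univ.filter fun r : ι → ZMod 2 => ∑ i, r i * a i = 0).card * 2 =
      Fintype.card (ι → ZMod 2) := by
  set e : ι → ZMod 2 := Pi.single i0 1 with he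
  have hee : e + e = 0 := by
    funext i
    rw [Pi.add_apply, Pi.zero_apply]
    generalize e i = t
    revert t
    decide
  have hflip : ∀ r : ι → ZMod 2, ∑ i, (r + e) i * a i = ∑ i, r i * a i + 1 := by
    intro r
    have h1 : ∀ i, (r + e) i * a i = r i * a i + e i * a i := by
      intro i
      rw [Pi.add_apply, add_mul]
    rw [Finset.sum_congr rfl fun i _ => h1 i, Finset.sum_add_distrib]
    congr 1
    rw [Finset.sum_eq_single i0]
    · simp [he, h0]
    · intro b _ hb
      simp [he, Pi.single_eq_of_ne hb]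
    · intro h
      exact absurd (Finset.mem_univ _) h
  have hcard : (Finset.univ.filter fun r : ι → ZMod 2 => ∑ i, r i * a i = 0).card =
      (Finset.univ.filter fun r : ι → ZMod 2 => ¬ ∑ i, r i * a i = 0).card := by
    refine Finset.card_bij' (fun r _ => r + e) (fun r _ => r + e) ?_ ?_ ?_ ?_
    · intro r hr
      rw [Finset.mem_filter] at hr ⊢
      refine ⟨Finset.mem_univ _, ?_⟩
      rw [hflip, hr.2]
      decide
    · intro r hr
      rw [Finset.mem_filter] at hr ⊢
      refine ⟨Finset.mem_univ _, ?_⟩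
      rw [hflip]
      have := hr.2
      revert this
      generalize ∑ i, r i * a i = s
      revert s
      decide
    · intro r _
      rw [add_assoc, hee, add_zero]
    · intro r _
      rw [add_assoc, hee, add_zero]
  have hsum := Finset.card_filter_add_card_filter_not (s := (Finset.univ : Finset (ι → ZMod 2)))
    (fun r : ι → ZMod 2 => ∑ i, r i * a i = 0)
  rw [Finset.card_univ] at hsum
  omega

/-- The random low degree function. -/
def rsG {ι : Type} [Fintype ι] (f : ι → Fn V) (ℓ : ℕ) (R : Fin ℓ → ι → ZMod 2) : Fn V :=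
  fun x => ∏ t, (1 + ∑ i, R t i * (1 + f i x))

theorem rsG_mem {ι : Type} [Fintype ι] (f : ι → Fn V) (D ℓ : ℕ) (hf : ∀ i, f i ∈ VD V D)
    (R : Fin ℓ → ι → ZMod 2) : rsG f ℓ R ∈ VD V (ℓ * D) := by
  have h : rsG f ℓ R = ∏ t : Fin ℓ, ((fun _ => 1 : Fn V) +
      ∑ i, R t i • ((fun _ => 1 : Fn V) + f i)) := by
    funext x
    simp only [rsG, Finset.prod_apply, Finset.sum_apply, Pi.add_apply, Pi.smul_apply, smul_eq_mul]
  rw [h]
  have h2 := VD_prod (Finset.univ : Finset (Fin ℓ)) (fun t => ((fun _ => 1 : Fn V) +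
      ∑ i, R t i • ((fun _ => 1 : Fn V) + f i))) D fun t _ =>
    Submodule.add_mem _ (const_mem _ _) (Submodule.sum_mem _ fun i _ =>
      Submodule.smul_mem _ _ (Submodule.add_mem _ (const_mem _ _) (hf i)))
  rw [Finset.card_univ, Fintype.card_fin] at h2
  exact h2

theorem rs_bad {ι : Type} [Fintype ι] [DecidableEq ι] (f : ι → Fn V) (ℓ : ℕ) (x : Pt V) :
    (Finset.univ.filter fun R : Fin ℓ → ι → ZMod 2 => (∏ i, f i x) ≠ rsG f ℓ R x).card * 2 ^ ℓ ≤
      Fintype.card (Fin ℓ → ι → ZMod 2) := by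
  by_cases hall : ∀ i, f i x = 1
  · have h0 : (Finset.univ.filter fun R : Fin ℓ → ι → ZMod 2 =>
        (∏ i, f i x) ≠ rsG f ℓ R x) = ∅ := by
      apply Finset.filter_eq_empty_iff.mpr
      intro R _ h
      apply h
      have h11 : (1 : ZMod 2) + 1 = 0 := by decide
      simp [rsG, hall, h11]
    rw [h0]
    simp
  · push Not at hall
    obtain ⟨i0, hi0⟩ := hall
    have hi0' : f i0 x = 0 := by
      revert hi0
      generalize f i0 x = a
      revert a
      decide
    have hprod : ∏ i, f i x = 0 := Finset.prod_eq_zero (Finset.mem_univ i0) hi0'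
    have hsub : (Finset.univ.filter fun R : Fin ℓ → ι → ZMod 2 =>
        (∏ i, f i x) ≠ rsG f ℓ R x) ⊆
        Fintype.piFinset fun _ : Fin ℓ =>
          (Finset.univ.filter fun r : ι → ZMod 2 => ∑ i, r i * (1 + f i x) = 0) := by
      intro R hR
      rw [Finset.mem_filter, hprod] at hR
      rw [Fintype.mem_piFinset]
      intro t
      rw [Finset.mem_filter]
      refine ⟨Finset.mem_univ _, ?_⟩
      by_contra hne
      apply hR.2
      symm
      apply Finset.prod_eq_zero (Finset.mem_univ t)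
      revert hne
      generalize ∑ i, R t i * (1 + f i x) = s
      revert s
      decide
    have hcard := Finset.card_le_card hsub
    rw [Fintype.card_piFinset] at hcard
    simp only [Finset.prod_const, Finset.card_univ, Fintype.card_fin] at hcard
    have hhalf := rs_half (fun i => 1 + f i x) i0 (by simp [hi0'])
    calc _ ≤ (Finset.univ.filter fun r : ι → ZMod 2 =>
          ∑ i, r i * (1 + f i x) = 0).card ^ ℓ * 2 ^ ℓ := Nat.mul_le_mul_right _ hcard
      _ = ((Finset.univ.filter fun r : ι → ZMod 2 =>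
          ∑ i, r i * (1 + f i x) = 0).card * 2) ^ ℓ := (mul_pow _ _ _).symm
      _ = Fintype.card (ι → ZMod 2) ^ ℓ := by rw [hhalf]
      _ = Fintype.card (Fin ℓ → ι → ZMod 2) := by
          rw [Fintype.card_fun (α := Fin ℓ), Fintype.card_fin]
      _ ≤ _ := le_rfl

/-- A product of functions of degree at most `D` agrees with a function of degree at most `ℓ * D`
on all but a `2 ^ (-ℓ)` fraction of the points. -/
theorem rs_fintype {ι : Type} [Fintype ι] (f : ι → Fn V) (D ℓ : ℕ) (hf : ∀ i, f i ∈ VD V D) :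
    ∃ g ∈ VD V (ℓ * D),
      (Finset.univ.filter fun x : Pt V => (∏ i, f i x) ≠ g x).card * 2 ^ ℓ ≤
        2 ^ Fintype.card V := by
  classical
  by_contra hcon
  push Not at hcon
  have h1 : ∀ R : Fin ℓ → ι → ZMod 2, 2 ^ Fintype.card V <
      (Finset.univ.filter fun x : Pt V => (∏ i, f i x) ≠ rsG f ℓ R x).card * 2 ^ ℓ :=
    fun R => hcon _ (rsG_mem f D ℓ hf R)
  have hswap : ∑ R : Fin ℓ → ι → ZMod 2,
      (Finset.univ.filter fun x : Pt V => (∏ i, f i x) ≠ rsG f ℓ R x).card =
      ∑ x : Pt V, (Finset.univ.filter fun R : Fin ℓ → ι → ZMod 2 =>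
        (∏ i, f i x) ≠ rsG f ℓ R x).card := by
    simp only [Finset.card_filter]
    exact Finset.sum_comm
  have hle : (∑ R : Fin ℓ → ι → ZMod 2,
      (Finset.univ.filter fun x : Pt V => (∏ i, f i x) ≠ rsG f ℓ R x).card) * 2 ^ ℓ ≤
      2 ^ Fintype.card V * Fintype.card (Fin ℓ → ι → ZMod 2) := by
    rw [hswap, Finset.sum_mul]
    calc _ ≤ ∑ _x : Pt V, Fintype.card (Fin ℓ → ι → ZMod 2) :=
          Finset.sum_le_sum fun x _ => rs_bad f ℓ x
      _ = _ := by
          rw [Finset.sum_const, smul_eq_mul, Finset.card_univ, Fintype.card_fun, ZMod.card]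
  have hlt : 2 ^ Fintype.card V * Fintype.card (Fin ℓ → ι → ZMod 2) <
      (∑ R : Fin ℓ → ι → ZMod 2,
      (Finset.univ.filter fun x : Pt V => (∏ i, f i x) ≠ rsG f ℓ R x).card) * 2 ^ ℓ := by
    rw [Finset.sum_mul]
    calc 2 ^ Fintype.card V * Fintype.card (Fin ℓ → ι → ZMod 2)
        = ∑ _R : Fin ℓ → ι → ZMod 2, 2 ^ Fintype.card V := by
          rw [Finset.sum_const, smul_eq_mul, Finset.card_univ, mul_comm]
      _ < _ := Finset.sum_lt_sum_of_nonempty ⟨fun _ _ => 0, Finset.mem_univ _⟩ fun R _ => h1 R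
  exact absurd hle (not_le.mpr hlt)

theorem rs_multiset {ι : Type} (S : Multiset ι) (f : ι → Fn V) (D ℓ : ℕ)
    (hf : ∀ i, f i ∈ VD V D) :
    ∃ g ∈ VD V (ℓ * D),
      (Finset.univ.filter fun x : Pt V => (S.map fun i => f i x).prod ≠ g x).card * 2 ^ ℓ ≤
        2 ^ Fintype.card V := by
  classical
  obtain ⟨g, hg, hcard⟩ := rs_fintype (fun i : S.toFinset => f i) D ℓ fun i => hf i
  refine ⟨g, hg, ?_⟩
  have hprod : ∀ x : Pt V, (S.map fun i => f i x).prod = ∏ i : S.toFinset, f i x := by
    intro x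
    rw [Finset.prod_coe_sort S.toFinset (fun i => f i x), Finset.prod_multiset_map_count]
    apply Finset.prod_congr rfl
    intro i hi
    have hpos : S.count i ≠ 0 := (Multiset.count_pos.mpr (Multiset.mem_toFinset.mp hi)).ne'
    generalize f i x = a
    revert a
    intro a
    have h01 : a = 0 ∨ a = 1 := by
      revert a
      decide
    rcases h01 with rfl | rfl
    · exact zero_pow hpos
    · exact one_pow _
  simp only [hprod]
  exact hcard

end Vale.Agent.P346
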